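import Vale.Agent.P237.AllN.Defs

/-!
# P237: the recursion inequality (W1)

For a symmetric body `K ⊆ ℝ^(b+1)` and a direction `u`, `renyiGain K u` is
`(∫ A_u^(1-1/b))^b / V^(b-1)`, with `A_u` the density of `u ⬝ x` on `K`; it is homogeneous of degree
one in `u`. (W1) says that its mean over the normals is at least the value at balls.
-/

namespace Vale.Agent.P237.W1

open MeasureTheory Set
open Vale.Agent.P237.AllN (unitBall semicircle)

/-- The density of `u ⬝ x` under Lebesgue measure on `K`. -/
noncomputable def marginal {n : ℕ} (K : Set (Pt n)) (u : Pt n) (s : ℝ) : ℝ :=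
  ((Measure.map (fun x : Pt n => u ⬝ᵥ x) (volume.restrict K)).rnDeriv volume s).toReal

/-- The exponential Rényi entropy of the marginal across `u`, in dimension `k + 2`. -/
noncomputable def renyiGain {k : ℕ} (K : Set (Pt (k + 2))) (u : Pt (k + 2)) : ℝ :=
  (∫ s, marginal K u s ^ ((k : ℝ) / (k + 1))) ^ (k + 1) / (volume K).toReal ^ k

/-- The value of `renyiGain` at the unit ball in a unit direction. -/
noncomputable def renyiBall (k : ℕ) : ℝ :=
  unitBallVolume (k + 1) ^ k * (∫ t in (-1 : ℝ)..1, semicircle t ^ k) ^ (k + 1)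
    / unitBallVolume (k + 2) ^ k

/-- (W1): the integral of `renyiGain` against the surface area measure is at least the value at
balls. In cone measure: `renyiBall k * V ≤ ∫_K renyiGain K (ν x)`. -/
def MeanBound (k : ℕ) : Prop :=
  ∀ K : Set (Pt (k + 2)), P227.Zono.Body K →
    renyiBall k * (volume K).toReal ≤ ∫ x in K, renyiGain K (P227.Zono.normalAt K x)

/-- The equality case of (W1): centred ellipsoids only. -/
def MeanEqual (k : ℕ) : Prop :=
  ∀ K : Set (Pt (k + 2)), P227.Zono.Body K →
    (∫ x in K, renyiGain K (P227.Zono.normalAt K x)) ≤ renyiBall k * (volume K).toReal →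
      ∃ T : Pt (k + 2) ≃ₗ[ℝ] Pt (k + 2), K = T '' unitBall (k + 2)

end Vale.Agent.P237.W1
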