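import Vale.Agent.P237.W1.Gain
import Vale.Agent.P237.AllN.Final
import Vale.Agent.P237.Full.Core

/-!
# P237: the recursion from (W1)

If Petty's inequality holds in `ℝ^(k+1)` and (W1) in `ℝ^(k+2)`, Petty's inequality holds in
`ℝ^(k+2)`; with the equality case of (W1) also its equality cases. Starting from the theorem in
three-space, (W1) in every dimension at least four gives Petty's inequality in all dimensions.
-/

namespace Vale.Agent.P237.W1

open MeasureTheory Set Function Topology Filter Matrix
open Vale.Agent.P237.AllN (unitBall semicircle pettyConst RatioBound RatioEqual)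
open Full (Cvx ratio mixedVol)

variable {k : ℕ}

/-- The constants multiply along the recursion. -/
theorem pettyConst_step (k : ℕ) : pettyConst (k + 2) = pettyConst (k + 1) * renyiBall k := by
  have := unitBallVolume_pos k
  have := unitBallVolume_pos (k + 1)
  have := unitBallVolume_pos (k + 2)
  rw [renyiBall, AllN.integral_semicircle_pow, AllN.pettyConst_eq, AllN.pettyConst_eq, div_pow]
  field_simp
  ring

/-- The volume of the projection body dominates the integral of `renyiGain` over the normals. -/
theorem integral_renyi_le (hk : 1 ≤ k) (hIH : RatioBound k) {K : Set (Pt (k + 2))}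
    (hK : P227.Zono.Body K) :
    pettyConst (k + 1) * (volume K).toReal ^ k
        * ∫ x in K, renyiGain K (P227.Zono.normalAt K x)
      ≤ (volume (gainBody K)).toReal := by
  have hC := Cvx.of_body hK
  have hG := hC.cvx_gainBody
  rw [← Full.mixedVol_second hC, mixedVol, ← integral_const_mul]
  simp only [hG.supportVal_gainBody]
  have hP := (AllN.pettyConst_pos k).le
  refine integral_mono_of_nonneg (Eventually.of_forall fun x =>
    mul_nonneg (mul_nonneg hP (pow_nonneg ENNReal.toReal_nonneg _)) (renyiGain_nonneg _))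
    (hC.integrableOn_comp hG.continuous_gain) ?_
  filter_upwards [ae_restrict_of_ae hC.supportVal_normal] with x hx
  rw [mul_assoc]
  refine renyi_le_gain hP hk hIH hK fun h0 => ?_
  obtain ⟨y, -, hy⟩ := Full.exists_supportVal hC.compact hC.nonempty (P227.Zono.normalAt K x)
  rw [hx, h0, zero_dotProduct] at hy
  exact zero_ne_one hy

/-- The bound for symmetric bodies. -/
theorem ratio_symmetric (hk : 1 ≤ k) (hIH : RatioBound k) {K : Set (Pt (k + 2))}
    (hK : P227.Zono.Body K)
    (hW : renyiBall k * (volume K).toReal ≤ ∫ x in K, renyiGain K (P227.Zono.normalAt K x)) :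
    pettyConst (k + 2) ≤ ratio K := by
  have hV := (Cvx.of_body hK).volume_pos
  rw [ratio, le_div_iff₀ (pow_pos hV _)]
  refine le_trans ?_ (integral_renyi_le hk hIH hK)
  refine le_trans (le_of_eq ?_)
    (mul_le_mul_of_nonneg_left hW (mul_nonneg (AllN.pettyConst_pos k).le (pow_nonneg hV.le k)))
  rw [pettyConst_step, pow_succ]
  ring

/-- Petty's inequality passes from `ℝ^(k+1)` to `ℝ^(k+2)` by (W1). -/
theorem bound_step (hk : 1 ≤ k) (hIH : RatioBound k) (hW : MeanBound k) : RatioBound (k + 1) :=
  fun _ hL => (ratio_symmetric hk hIH hL.body_gainBody (hW _ hL.body_gainBody)).trans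
    (Full.ratio_gainBody_le hL)

/-- The equality cases follow from those of (W1). -/
theorem equal_step (hk : 1 ≤ k) (hIH : RatioBound k) (hW : MeanBound k) (hE : MeanEqual k) :
    RatioEqual (k + 1) := by
  intro L hL hle
  have hlow := bound_step hk hIH hW
  have hL₁ := hL.cvx_gainBody
  have hK := hL₁.body_gainBody
  have hr : ratio (gainBody (gainBody L)) ≤ pettyConst (k + 2) :=
    (Full.ratio_gainBody_le hL₁).trans ((Full.ratio_gainBody_le hL).trans hle)
  have hV := (Cvx.of_body hK).volume_pos
  rw [ratio, div_le_iff₀ (pow_pos hV _)] at hr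
  have hint := (integral_renyi_le hk hIH hK).trans hr
  rw [pettyConst_step, pow_succ] at hint
  obtain ⟨T, hT⟩ := hE _ hK (le_of_mul_le_mul_left (hint.trans (le_of_eq (by ring)))
    (mul_pos (AllN.pettyConst_pos k) (pow_pos hV k)))
  obtain ⟨r, v, hr0, he⟩ :=
    Full.homothetic_of_ratio_eq (k := k) hL (hle.trans (hlow _ hL₁))
  refine ⟨T.trans (LinearEquiv.smulOfUnit (Units.mk0 r hr0.ne')).symm, -(r⁻¹ • v), ?_⟩
  rw [hT] at he
  have e : ∀ x, (T.trans (LinearEquiv.smulOfUnit (Units.mk0 r hr0.ne')).symm) x = r⁻¹ • T x :=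
    fun x => rfl
  simp only [e]
  have h3 : (fun x => r⁻¹ • (x + -v)) '' (T '' unitBall (k + 2)) = L := by
    rw [he, ← image_smul, image_image, image_image]
    conv_rhs => rw [← image_id' L]
    refine image_congr fun x _ => ?_
    rw [add_neg_cancel_right, inv_smul_smul₀ hr0.ne']
  rw [← h3, image_image]
  refine image_congr fun x _ => ?_
  rw [smul_add, smul_neg]

/-- The theorem in three-space in the present notation. -/
theorem ratio_two : RatioBound 2 ∧ RatioEqual 2 := by
  have hc : pettyConst (2 + 1) = 3 * Real.pi ^ 2 / 4 := by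
    rw [pettyConst]; exact_mod_cast Full.ball_constant
  have hb : unitBall 3 = Full.ball3 := rfl
  refine ⟨fun L hL => ?_, fun L hL hle => ?_⟩
  · rw [hc]; exact (Full.ratio_lower (fun _ hB _ h => Full.fixed_lower hB h) hL).1
  · rw [hc] at hle
    rw [hb]
    exact (Full.ratio_lower (fun _ hB _ h => Full.fixed_lower hB h) hL).2 hle

/-- (W1) in every dimension at least four gives Petty's bound in all dimensions at least three. -/
theorem bound_all (hW : ∀ k, 2 ≤ k → MeanBound k) : ∀ m, 2 ≤ m → RatioBound m := by
  intro m hm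
  induction m, hm using Nat.le_induction with
  | base => exact ratio_two.1
  | succ m hm ih => exact bound_step (by omega) ih (hW m hm)

/-- With the equality case of (W1), also the equality cases. -/
theorem all_of (hW : ∀ k, 2 ≤ k → MeanBound k ∧ MeanEqual k) :
    ∀ m, 2 ≤ m → RatioBound m ∧ RatioEqual m := by
  intro m hm
  refine ⟨bound_all (fun k hk => (hW k hk).1) m hm, ?_⟩
  rcases eq_or_lt_of_le hm with rfl | h
  · exact ratio_two.2
  · obtain ⟨j, rfl⟩ : ∃ j, m = j + 1 := ⟨m - 1, by omega⟩
    exact equal_step (by omega) (bound_all (fun k hk => (hW k hk).1) j (by omega))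
      (hW j (by omega)).1 (hW j (by omega)).2

/-- Petty's inequality in every dimension from (W1) and its equality case. -/
theorem petty_of_mean (hW : ∀ k, 2 ≤ k → MeanBound k ∧ MeanEqual k) {n : ℕ} (hn : 3 ≤ n)
    {K : Set (EuclideanSpace ℝ (Fin n))} (hK : IsCompact K)
    (hc : Convex ℝ K) (hi : (interior K).Nonempty) :
    unitBallVolume (n - 1) ^ n * unitBallVolume n ^ (2 - (n : ℤ)) * euclVolume n K ^ (n - 1)
        ≤ euclVolume n (projBody K) ∧
      (euclVolume n (projBody K)
          = unitBallVolume (n - 1) ^ n * unitBallVolume n ^ (2 - (n : ℤ)) * euclVolume n K ^ (n - 1) ↔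
        ∃ (T : EuclideanSpace ℝ (Fin n) ≃ₗ[ℝ] EuclideanSpace ℝ (Fin n))
          (a : EuclideanSpace ℝ (Fin n)), K = (fun x => T x + a) '' Metric.closedBall 0 1) :=
  AllN.petty_all_of (all_of hW) hn hK hc hi

end Vale.Agent.P237.W1
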