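import Vale.Agent.P237.AllN.Step
import Vale.Agent.P237.Full.Equal

/-!
# P237: equality in the shadow bound makes the slices homothetic ellipsoids
-/

namespace Vale.Agent.P237.W1

open MeasureTheory Set Function Topology Filter Matrix
open scoped ENNReal NNReal Pointwise
open Vale.Agent.P237.AllN (unitBall pettyConst RatioBound RatioEqual lastAxis gain_slices
  measurable_gain_slice measurable_uncurry_slice exists_centred_slice ratio_rad)
open Full (Cvx Solid lo hi sliceVol rad ratio mixedVol)

variable {k : ℕ}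

/-- In equality the integrand is at its least value at almost every height. -/
theorem shadow_eq {P : ℝ} (hP : 0 ≤ P) (hIH : ∀ L : Set (Pt (k + 1)), Cvx L → P ≤ ratio L)
    {A : Set (Pt (k + 1) × ℝ)} (hA : Solid A) {W : Set (Pt (k + 1))} (hW : Cvx W)
    (hsupp : ∀ v : Pt (k + 1), P227.Zono.supportVal W v = ∫ t, gain (P237.slice A t) v)
    (hle : rad W ≤
      P ^ (((k + 1 : ℕ) : ℝ)⁻¹) * ∫ t in Ioo (lo A) (hi A), rad (P237.slice A t) ^ k) :
    ∀ᵐ t, t ∈ Ioo (lo A) (hi A) →
      ∫ x in W, gain (P237.slice A t) (P227.Zono.normalAt W x)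
        = rad W ^ k * (P ^ (((k + 1 : ℕ) : ℝ)⁻¹) * rad (P237.slice A t) ^ k) := by
  set I := Ioo (lo A) (hi A)
  set P' := P ^ (((k + 1 : ℕ) : ℝ)⁻¹)
  have hP' : 0 ≤ P' := Real.rpow_nonneg hP _
  have hcvx : ∀ t ∈ I, ∃ L : Set (Pt (k + 1)), Cvx L ∧
      (∀ u, gain L u = gain (P237.slice A t) u) ∧ rad L = rad (P237.slice A t) :=
    fun t ht => exists_centred_slice hA ht
  obtain ⟨C, hC0, hC⟩ := hW.exists_normal_bound
  set φ : ℝ → Pt (k + 1) → ℝ := fun t v => I.indicator (fun t => gain (P237.slice A t) v) t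
  have hφc : ∀ t, Continuous (φ t) := fun t => by
    by_cases ht : t ∈ I
    · obtain ⟨L, hL, hg, -⟩ := hcvx t ht
      refine (hL.continuous_gain).congr fun v => ?_
      simp [φ, indicator_of_mem ht, hg]
    · simp [φ, indicator_of_notMem ht, continuous_const]
  have hφm : ∀ v, Measurable fun t => φ t v := fun v =>
    (measurable_gain_slice hA.compact v).indicator measurableSet_Ioo
  have hjoint : Measurable (uncurry φ) := measurable_uncurry_slice hφc hφm
  set F : Pt (k + 1) → ℝ → ℝ := fun x t => φ t (P227.Zono.normalAt W x)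
  set S := Prod.fst '' A
  have hcomp : IsCompact (S + Metric.closedBall (0 : Pt (k + 1)) C) :=
    (hA.compact.image continuous_fst).add (isCompact_closedBall _ _)
  set M := (volume (S + Metric.closedBall (0 : Pt (k + 1)) C)).toReal
  have hsl : ∀ t, P237.slice A t ⊆ S + Metric.closedBall (0 : Pt (k + 1)) C := fun t y hy =>
    ⟨y, ⟨(y, t), hy, rfl⟩, 0, by simpa using hC0, add_zero y⟩
  have hbound : ∀ x t, ‖F x t‖ ≤ M := fun x t => by
    by_cases ht : t ∈ I
    · simp only [F, φ, indicator_of_mem ht, Real.norm_eq_abs]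
      rw [abs_of_nonneg (gain_nonneg (hA.isCompact_slice t) _), gain]
      refine le_trans (sub_le_self _ ENNReal.toReal_nonneg) (ENNReal.toReal_mono
        hcomp.measure_lt_top.ne (measure_mono ?_))
      rintro _ ⟨⟨y, τ⟩, ⟨hy, hτ⟩, rfl⟩
      refine ⟨y, ⟨(y, t), hy, rfl⟩, τ • P227.Zono.normalAt W x, ?_, rfl⟩
      rw [mem_closedBall_zero_iff, norm_smul, Real.norm_eq_abs, abs_of_nonneg hτ.1]
      exact (mul_le_of_le_one_left (norm_nonneg _) hτ.2).trans (hC x)
    · simp [F, φ, indicator_of_notMem ht, M, ENNReal.toReal_nonneg]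
  have hint : Integrable (uncurry F) ((volume.restrict W).prod (volume.restrict I)) := by
    have : IsFiniteMeasure (volume.restrict W) :=
      isFiniteMeasure_restrict.2 hW.compact.measure_lt_top.ne
    have : IsFiniteMeasure (volume.restrict I) := isFiniteMeasure_restrict.2 measure_Ioo_lt_top.ne
    refine Integrable.of_bound ?_ M (Eventually.of_forall fun p => hbound p.1 p.2)
    exact (hjoint.comp (measurable_snd.prodMk
      ((P227.Zono.measurable_normalAt W).comp measurable_fst))).aestronglyMeasurable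
  have hsuppI : ∀ v : Pt (k + 1), P227.Zono.supportVal W v = ∫ t in I, φ t v := by
    intro v
    rw [hsupp, setIntegral_congr_fun measurableSet_Ioo fun t ht => indicator_of_mem ht _,
      ← integral_Icc_eq_integral_Ioo]
    refine (setIntegral_eq_integral_of_forall_compl_eq_zero fun t ht => ?_).symm
    have : P237.slice A t = ∅ := eq_empty_of_forall_notMem fun x hx => ht (hA.mem_Icc hx)
    simp [gain, swept, this]
  have hM : Integrable (fun t => ∫ x, F x t ∂(volume.restrict W)) (volume.restrict I) :=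
    hint.integral_prod_right
  have hN : Integrable (fun t => rad W ^ k * (P' * rad (P237.slice A t) ^ k)) (volume.restrict I) := by
    have hm : Measurable fun t => rad (P237.slice A t) := by
      show Measurable fun t => (volume (P237.slice A t)).toReal ^ (((k + 1 : ℕ) : ℝ)⁻¹)
      exact hA.measurable_sliceVol.pow_const _
    refine Measure.integrableOn_of_bounded
      (M := rad W ^ k * (P' * rad (S + Metric.closedBall (0 : Pt (k + 1)) C) ^ k))
      measure_Ioo_lt_top.ne (((hm.pow_const k).const_mul P').const_mul (rad W ^ k)).aestronglyMeasurable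
      (Eventually.of_forall fun t => ?_)
    have hWn := Full.rad_nonneg W
    have htn := Full.rad_nonneg (P237.slice A t)
    rw [Real.norm_eq_abs, abs_of_nonneg (by positivity)]
    gcongr
    exact Real.rpow_le_rpow ENNReal.toReal_nonneg (ENNReal.toReal_mono hcomp.measure_lt_top.ne
      (measure_mono (hsl t))) (by positivity)
  have hpt : ∀ t ∈ I, rad W ^ k * (P' * rad (P237.slice A t) ^ k)
      ≤ ∫ x in W, F x t := fun t ht => by
    obtain ⟨L, hL, hg, hr⟩ := hcvx t ht
    have h := Full.minkowski hW hL.cvx_gainBody hL.zd_gainBody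
    have e : ∫ x in W, F x t = mixedVol W (gainBody L) := by
      refine setIntegral_congr_fun hW.compact.measurableSet fun x _ => ?_
      simp [F, φ, indicator_of_mem ht, hL.supportVal_gainBody, hg]
    rw [e]
    refine le_trans (mul_le_mul_of_nonneg_left ?_ (pow_nonneg (Full.rad_nonneg W) _)) h
    rw [← hr]
    exact ratio_rad hP hIH hL
  have key : ∫ t in I, ∫ x in W, F x t
      ≤ ∫ t in I, rad W ^ k * (P' * rad (P237.slice A t) ^ k) := by
    rw [← integral_integral_swap hint, integral_const_mul, integral_const_mul]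
    simp only [F, ← hsuppI]
    refine le_trans (le_of_eq ?_) (mul_le_mul_of_nonneg_left hle (pow_nonneg (Full.rad_nonneg W) _))
    show mixedVol W W = _
    rw [Full.mixedVol_self hW, ← pow_succ, Full.rad_pow]
  have hle' : (fun t => rad W ^ k * (P' * rad (P237.slice A t) ^ k))
      ≤ᵐ[volume.restrict I] fun t => ∫ x in W, F x t :=
    (ae_restrict_mem measurableSet_Ioo).mono fun t ht => hpt t ht
  have heq := (integral_eq_iff_of_ae_le hN hM hle').1 (le_antisymm (integral_mono_ae hN hM hle') key)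
  filter_upwards [ae_imp_of_ae_restrict heq] with t ht htI
  rw [ht htI]
  refine setIntegral_congr_fun hW.compact.measurableSet fun x _ => ?_
  simp [F, φ, indicator_of_mem htI]

theorem supportVal_translate {G : Set (Pt (k + 1))} (hG : IsCompact G) (hne : G.Nonempty)
    (a u : Pt (k + 1)) :
    P227.Zono.supportVal ((fun x => x + a) '' G) u = P227.Zono.supportVal G u + u ⬝ᵥ a := by
  have hc : IsCompact ((fun x => x + a) '' G) := hG.image (continuous_id.add continuous_const)
  obtain ⟨_, ⟨x, hx, rfl⟩, he⟩ := Full.exists_supportVal hc (hne.image _) u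
  obtain ⟨y, hy, he'⟩ := Full.exists_supportVal hG hne u
  rw [dotProduct_add] at he
  refine le_antisymm ?_ ?_
  · linarith [Full.le_supportVal hG hx u]
  · rw [← he', ← dotProduct_add]
    exact Full.le_supportVal hc (mem_image_of_mem _ hy) u

theorem exists_affine_ball_gain (T : Pt (k + 1) ≃ₗ[ℝ] Pt (k + 1)) :
    ∃ ν : ℝ, 0 < ν ∧ ∀ (a v : Pt (k + 1)), gain ((fun x => T x + a) '' unitBall (k + 1)) v
      = ν * √(T.symm v ⬝ᵥ T.symm v) := by
  obtain ⟨hc, hT⟩ := exists_factor T
  refine ⟨_ * unitBallVolume k, mul_pos hc (unitBallVolume_pos k), fun a v => ?_⟩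
  rw [← image_image (fun x => x + a) T, gain_translate]
  conv_lhs => rw [← T.apply_symm_apply v]
  rw [gain_image T hT, AllN.gain_unitBall, mul_assoc]

/-- Balls of proportional quadratic forms. -/
theorem image_ball_eq {S T : Pt (k + 1) ≃ₗ[ℝ] Pt (k + 1)} {μ : ℝ} (hμ : 0 < μ)
    (h : ∀ v, √(T.symm v ⬝ᵥ T.symm v) = μ * √(S.symm v ⬝ᵥ S.symm v)) :
    T '' unitBall (k + 1) = S '' (μ⁻¹ • unitBall (k + 1)) := by
  ext x
  rw [T.image_eq_preimage_symm, S.image_eq_preimage_symm, mem_preimage, mem_preimage,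
    mem_smul_set_iff_inv_smul_mem₀ (inv_ne_zero hμ.ne'), inv_inv]
  show _ ≤ (1 : ℝ) ↔ _ ≤ (1 : ℝ)
  have hn : ∀ y : Pt (k + 1), 0 ≤ y ⬝ᵥ y := fun y => Finset.sum_nonneg fun i _ => mul_self_nonneg _
  rw [← Real.sqrt_le_one, h, ← Real.sqrt_le_one (x := (μ • S.symm x) ⬝ᵥ (μ • S.symm x))]
  simp only [smul_dotProduct, dotProduct_smul, smul_eq_mul]
  rw [← mul_assoc, Real.sqrt_mul (mul_nonneg hμ.le hμ.le), Real.sqrt_mul_self hμ.le]

/-- The slices at almost every height are homothetic to one ellipsoid. -/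
theorem slices_ellipsoid_ae (hk : 1 ≤ k) (hIH : RatioBound k) (hEQ : RatioEqual k)
    {A : Set (Pt (k + 1) × ℝ)} (hA : Solid A) {W : Set (Pt (k + 1))} (hW : Cvx W)
    (hsupp : ∀ v : Pt (k + 1), P227.Zono.supportVal W v = ∫ t, gain (P237.slice A t) v)
    (hle : rad W ≤ pettyConst (k + 1) ^ (((k + 1 : ℕ) : ℝ)⁻¹)
      * ∫ t in Ioo (lo A) (hi A), rad (P237.slice A t) ^ k) :
    ∃ S : Pt (k + 1) ≃ₗ[ℝ] Pt (k + 1), ∀ᵐ t, t ∈ Ioo (lo A) (hi A) →
      ∃ (a : Pt (k + 1)) (r : ℝ), 0 < r ∧
        P237.slice A t = (fun x => x + a) '' (S '' (r • unitBall (k + 1))) := by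
  obtain ⟨j, rfl⟩ : ∃ j, k = j + 1 := ⟨k - 1, by omega⟩
  set P := pettyConst (j + 1 + 1)
  have hP : 0 < P := AllN.pettyConst_pos _
  have hI : ∀ t ∈ Ioo (lo A) (hi A),
      (∫ x in W, gain (P237.slice A t) (P227.Zono.normalAt W x)
        = rad W ^ (j + 1) * (P ^ (((j + 1 + 1 : ℕ) : ℝ)⁻¹) * rad (P237.slice A t) ^ (j + 1))) →
      ∃ (T : Pt (j + 1 + 1) ≃ₗ[ℝ] Pt (j + 1 + 1)) (a : Pt (j + 1 + 1)) (ν : ℝ), 0 < ν ∧
        P237.slice A t = (fun x => T x + a) '' unitBall (j + 1 + 1) ∧
        ∀ v, √(T.symm v ⬝ᵥ T.symm v) = ν * P227.Zono.supportVal W v := by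
    intro t ht he
    have hc : Convex ℝ (P237.slice A t) := fun x hx y hy a b ha hb hab => by
      have h := hA.convex hx hy ha hb hab
      show (a • x + b • y, t) ∈ A
      rwa [Prod.smul_mk, Prod.smul_mk, Prod.mk_add_mk, ← add_smul, hab, one_smul] at h
    have hne : (interior (P237.slice A t)).Nonempty := by
      by_contra h
      have h0 := (hc.addHaar_frontier (μ := (volume : Measure (Pt (j + 1 + 1)))))
      rw [frontier, (hA.isCompact_slice t).isClosed.closure_eq,
        not_nonempty_iff_eq_empty.1 h, sdiff_empty] at h0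
      have := hA.slice_pos ht
      simp [sliceVol, h0] at this
    obtain ⟨x, hx⟩ := hne
    set L := (fun y => y + -x) '' P237.slice A t
    have hL : Cvx L := by
      refine ⟨(hA.isCompact_slice t).image (by fun_prop),
        by simpa [L, add_comm] using hc.translate (-x), ?_⟩
      simp only [L]
      rw [image_add_right, neg_neg]
      exact (continuous_add_const x).continuousAt.preimage_mem_nhds
        (by simpa using mem_interior_iff_mem_nhds.1 hx)
    have hg : ∀ v, gain L v = gain (P237.slice A t) v := fun v => gain_translate _ _ v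
    have hrL : rad L = rad (P237.slice A t) := by rw [rad, rad, volume_translate]
    have hm : mixedVol W (gainBody L)
        = rad W ^ (j + 1) * (P ^ (((j + 1 + 1 : ℕ) : ℝ)⁻¹) * rad L ^ (j + 1)) := by
      rw [hrL, ← he]
      refine setIntegral_congr_fun hW.compact.measurableSet fun x _ => ?_
      rw [hL.supportVal_gainBody, hg]
    have hG := hL.cvx_gainBody
    have hmk := Full.minkowski hW hG hL.zd_gainBody
    rw [hm] at hmk
    have hge := ratio_rad hP.le hIH hL
    have hrle := le_of_mul_le_mul_left hmk (pow_pos (Full.rad_pos hW) _)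
    -- the slice is an extremal body
    have hratio : ratio L ≤ P := by
      have h := pow_le_pow_left₀ (Full.rad_nonneg _) hrle (j + 1 + 1)
      rw [Full.rad_pow, mul_pow, Real.rpow_inv_natCast_pow hP.le (Nat.succ_ne_zero _), ← pow_mul,
        mul_comm (j + 1) (j + 1 + 1), pow_mul, Full.rad_pow] at h
      rwa [ratio, div_le_iff₀ (pow_pos hL.volume_pos _)]
    obtain ⟨T, a, hT⟩ := hEQ L hL hratio
    -- its projection body is a dilate of the shadow
    have hadd := Full.rad_add_of_mixedVol_eq hW hG hL.zd_gainBody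
      (hm.le.trans (mul_le_mul_of_nonneg_left hge (pow_nonneg (Full.rad_nonneg _) _)))
    obtain ⟨z, hz⟩ := Full.homothetic_of_rad_add hW hG hadd.le
    set c := rad (gainBody L) / rad W
    have hc0 : 0 < c := div_pos (Full.rad_pos hG) (Full.rad_pos hW)
    have hs : ∀ v, gain L v = c * P227.Zono.supportVal W v + v ⬝ᵥ z := fun v => by
      rw [← hL.supportVal_gainBody, hz,
        supportVal_translate (hW.compact.smul c) (hW.nonempty.smul_set),
        Full.supportVal_smul_left v hc0.le]
    have hWeven : ∀ v, P227.Zono.supportVal W (-v) = P227.Zono.supportVal W v := fun v => by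
      simp only [hsupp, gain_neg]
    have hz0 : ∀ v, v ⬝ᵥ z = 0 := fun v => by
      have h1 := hs v
      have h2 := hs (-v)
      rw [gain_neg, hWeven, neg_dotProduct] at h2
      linarith
    obtain ⟨ν, hν, hball⟩ := exists_affine_ball_gain T
    refine ⟨T, a + x, c / ν, div_pos hc0 hν, ?_, fun v => ?_⟩
    · have e : P237.slice A t = (fun y => y + x) '' L := by
        simp only [L]
        rw [image_image]
        simp
      rw [e, hT, image_image]
      exact image_congr fun y _ => add_assoc _ _ _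
    · have h := hs v
      rw [hT, hball, hz0, add_zero] at h
      field_simp
      linarith
  have hae := shadow_eq hP.le hIH hA hW hsupp hle
  obtain ⟨t₀, ht₀, hgood⟩ : ∃ t₀ ∈ Ioo (lo A) (hi A),
      ∫ x in W, gain (P237.slice A t₀) (P227.Zono.normalAt W x)
        = rad W ^ (j + 1) * (P ^ (((j + 1 + 1 : ℕ) : ℝ)⁻¹) * rad (P237.slice A t₀) ^ (j + 1)) := by
    obtain ⟨t, ht, hts⟩ := (Measure.dense_of_ae hae).exists_mem_open isOpen_Ioo
      (nonempty_Ioo.2 hA.lo_lt_hi)
    exact ⟨t, hts, ht hts⟩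
  obtain ⟨S, a₀, ν₀, hν₀, -, hS⟩ := hI t₀ ht₀ hgood
  refine ⟨S, hae.mono fun t ht htI => ?_⟩
  obtain ⟨T, a, ν, hν, hsl, hT⟩ := hI t htI (ht htI)
  refine ⟨a, (ν / ν₀)⁻¹, inv_pos.2 (div_pos hν hν₀), ?_⟩
  rw [hsl, ← image_image (fun x => x + a) T,
    image_ball_eq (S := S) (div_pos hν hν₀) fun v => by rw [hT, hS]; field_simp]

/-- The slices at every inner height are homothetic to one ellipsoid. -/
theorem slices_ellipsoid (hk : 1 ≤ k) (hIH : RatioBound k) (hEQ : RatioEqual k)
    {A : Set (Pt (k + 1) × ℝ)} (hA : Solid A) {W : Set (Pt (k + 1))} (hW : Cvx W)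
    (hsupp : ∀ v : Pt (k + 1), P227.Zono.supportVal W v = ∫ t, gain (P237.slice A t) v)
    (hle : rad W ≤ pettyConst (k + 1) ^ (((k + 1 : ℕ) : ℝ)⁻¹)
      * ∫ t in Ioo (lo A) (hi A), rad (P237.slice A t) ^ k) :
    ∃ (S : Pt (k + 1) ≃ₗ[ℝ] Pt (k + 1)) (a : ℝ → Pt (k + 1)) (r : ℝ → ℝ),
      ∀ t ∈ Ioo (lo A) (hi A), 0 < r t ∧
        P237.slice A t = (fun x => x + a t) '' (S '' (r t • unitBall (k + 1))) := by
  obtain ⟨S, hS⟩ := slices_ellipsoid_ae hk hIH hEQ hA hW hsupp hle
  set B := S '' unitBall (k + 1)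
  have hBc : IsCompact B :=
    (AllN.isCompact_unitBall _).image S.toLinearMap.continuous_of_finiteDimensional
  have hB : Cvx B := Cvx.of_body (Full.body_image S (AllN.body_unitBall _))
  have hSB : ∀ r : ℝ, S '' (r • unitBall (k + 1)) = r • B := fun r => image_smul_set ..
  set ρ : ℝ → ℝ := fun t => rad (P237.slice A t) / rad B
  have hgood : ∀ t ∈ Ioo (lo A) (hi A), ∀ (a : Pt (k + 1)) (r : ℝ), 0 < r →
      P237.slice A t = (fun x => x + a) '' (S '' (r • unitBall (k + 1))) → r = ρ t := by
    intro t _ a r hr he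
    have h1 : rad (P237.slice A t) = r * rad B := by
      rw [he, hSB, rad, volume_translate, ← rad, Full.rad_smul B hr.le]
    simp only [ρ, h1, mul_div_cancel_right₀ _ (Full.rad_pos hB).ne']
  have key : ∀ t ∈ Ioo (lo A) (hi A), ∃ a : Pt (k + 1),
      P237.slice A t = (fun x => x + a) '' (S '' (ρ t • unitBall (k + 1))) := by
    intro t ht
    have hρ : 0 < ρ t := div_pos (hA.rad_slice_pos ht) (Full.rad_pos hB)
    have hd := Measure.dense_of_ae hS
    obtain ⟨δ, hδ, hδI⟩ := Metric.isOpen_iff.1 isOpen_Ioo t ht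
    have hj : ∀ i : ℕ, ∃ s ∈ Ioo (lo A) (hi A), |s - t| < δ / ((i : ℝ) + 1) ∧ ∃ a : Pt (k + 1),
        P237.slice A s = (fun x => x + a) '' (S '' (ρ s • unitBall (k + 1))) := by
      intro i
      obtain ⟨s, hs, hsb⟩ := hd.exists_mem_open Metric.isOpen_ball
        ⟨t, Metric.mem_ball_self (show 0 < δ / ((i : ℝ) + 1) by positivity)⟩
      have hsI : s ∈ Ioo (lo A) (hi A) := hδI (Metric.ball_subset_ball
        (div_le_self hδ.le (le_add_of_nonneg_left (Nat.cast_nonneg i))) hsb)
      obtain ⟨a, r, hr, he⟩ := hs hsI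
      refine ⟨s, hsI, by rwa [← Real.dist_eq], a, ?_⟩
      rwa [← hgood s hsI a r hr he]
    choose s hsI hst a ha using hj
    have hlim : Tendsto s atTop (𝓝 t) := by
      refine tendsto_iff_norm_sub_tendsto_zero.2 (squeeze_zero (fun i => norm_nonneg _)
        (fun i => (hst i).le) ?_)
      simpa [div_eq_mul_inv] using tendsto_one_div_add_atTop_nhds_zero_nat.const_mul δ
    have hzero : (0 : Pt (k + 1)) ∈ B := hB.zero_mem
    have hmem : ∀ i, a i ∈ Prod.fst '' A := fun i => by
      refine ⟨(a i, s i), ?_, rfl⟩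
      show a i ∈ P237.slice A (s i)
      rw [ha i, hSB]
      exact ⟨0, ⟨0, hzero, smul_zero _⟩, zero_add _⟩
    obtain ⟨a₀, -, φ, hφ, hconv⟩ := (hA.compact.image continuous_fst).tendsto_subseq hmem
    refine ⟨a₀, ?_⟩
    have hsub : (fun x => x + a₀) '' (S '' (ρ t • unitBall (k + 1))) ⊆ P237.slice A t := by
      rw [hSB]
      rintro _ ⟨_, ⟨b, hb, rfl⟩, rfl⟩
      have hcρ : ContinuousAt ρ t :=
        (hA.continuousOn_rad.continuousAt (Ioo_mem_nhds ht.1 ht.2)).div_const _
      have ht' := hlim.comp hφ.tendsto_atTop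
      show ((ρ t • b + a₀, t) : Pt (k + 1) × ℝ) ∈ A
      refine hA.compact.isClosed.mem_of_tendsto (f := fun i => (ρ (s (φ i)) • b + a (φ i), s (φ i)))
        ((((hcρ.tendsto.comp ht').smul_const b).add hconv).prodMk_nhds ht') ?_
      refine Eventually.of_forall fun i => ?_
      show ρ (s (φ i)) • b + a (φ i) ∈ P237.slice A (s (φ i))
      rw [ha (φ i), hSB]
      exact ⟨ρ (s (φ i)) • b, smul_mem_smul_set hb, rfl⟩
    set E := ρ t • B
    have hE : Cvx E := hB.dilate hρ
    set L := (fun y => y + -a₀) '' P237.slice A t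
    have hEL : E ⊆ L := fun e he => by
      refine ⟨e + a₀, hsub ?_, add_neg_cancel_right e a₀⟩
      rw [hSB]
      exact mem_image_of_mem _ he
    have hconv' : Convex ℝ (P237.slice A t) := fun x hx y hy a b ha hb hab => by
      have h := hA.convex hx hy ha hb hab
      show (a • x + b • y, t) ∈ A
      rwa [Prod.smul_mk, Prod.smul_mk, Prod.mk_add_mk, ← add_smul, hab, one_smul] at h
    have hL : Cvx L := ⟨(hA.isCompact_slice t).image (by fun_prop),
      by simpa [L, add_comm] using hconv'.translate (-a₀), mem_of_superset hE.nhds hEL⟩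
    have hLE : L = E := AllN.eq_of_subset_volume hL hE.compact hEL (by
      rw [← Full.rad_pow L, ← Full.rad_pow E]
      refine le_of_eq (congrArg (· ^ (k + 1)) ?_)
      simp only [L, E]
      rw [Full.rad_smul B hρ.le, rad, volume_translate, ← rad]
      simp only [ρ, div_mul_cancel₀ _ (Full.rad_pos hB).ne'])
    rw [hSB]
    show _ = (fun x => x + a₀) '' E
    rw [← hLE]
    simp only [L]
    rw [image_image]
    simp
  choose! a ha using key
  exact ⟨S, a, ρ, fun t ht =>
    ⟨div_pos (hA.rad_slice_pos ht) (Full.rad_pos hB), ha t ht⟩⟩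

/-- The shadow of the projection body across the last axis. -/
theorem exists_shadow {K : Set (Pt (k + 2))} (hK : Cvx K) :
    Solid (snocLin (k + 1) ⁻¹' K) ∧ ∃ W : Set (Pt (k + 1)), Cvx W ∧
      (∀ v : Pt (k + 1), P227.Zono.supportVal W v
        = ∫ t, gain (P237.slice (snocLin (k + 1) ⁻¹' K) t) v) ∧
      gain (gainBody K) (lastAxis (k + 1)) = rad W ^ (k + 1) := by
  set Sc := (snocLin (k + 1)).toContinuousLinearEquiv
  set A : Set (Pt (k + 1) × ℝ) := snocLin (k + 1) ⁻¹' K
  have hsymm : (snocLin (k + 1)).symm '' K = A := (snocLin (k + 1)).symm.image_eq_preimage_symm K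
  have hA : Solid A :=
    ⟨hsymm ▸ hK.compact.image (snocLin (k + 1)).symm.toLinearMap.continuous_of_finiteDimensional,
    hK.convex.linear_preimage (snocLin (k + 1)).toLinearMap,
    Sc.continuous.continuousAt.preimage_mem_nhds (by rw [map_zero]; exact hK.nhds)⟩
  have hG := hK.cvx_gainBody
  set G' : Set (Pt (k + 1) × ℝ) := snocLin (k + 1) ⁻¹' gainBody K
  have hsymm' : (snocLin (k + 1)).symm '' gainBody K = G' :=
    (snocLin (k + 1)).symm.image_eq_preimage_symm _
  have hG' : IsCompact G' :=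
    hsymm' ▸ hG.compact.image (snocLin (k + 1)).symm.toLinearMap.continuous_of_finiteDimensional
  have hG'c : Convex ℝ G' := hG.convex.linear_preimage (snocLin (k + 1)).toLinearMap
  set W := Prod.fst '' G'
  have hW : Cvx W := ⟨hG'.image continuous_fst, hG'c.linear_image (LinearMap.fst ℝ _ ℝ), by
    simpa using isOpenMap_fst.image_mem_nhds
      (show G' ∈ 𝓝 (0 : Pt (k + 1) × ℝ) from
        Sc.continuous.continuousAt.preimage_mem_nhds (by rw [map_zero]; exact hG.nhds))⟩
  have himg : ∀ S : Set (Pt (k + 2)), snocLin (k + 1) '' (snocLin (k + 1) ⁻¹' S) = S := fun S =>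
    image_preimage_eq _ (snocLin (k + 1)).surjective
  have hvolS : ∀ S : Set (Pt (k + 1) × ℝ),
      (volume (snocLin (k + 1) '' S)).toReal = 1 * (volume S).toReal :=
    fun S => by rw [volume_image_snocLin, one_mul]
  have haxis : snocLin (k + 1) ((0 : Pt (k + 1)), (1 : ℝ)) = lastAxis (k + 1) := by
    funext i
    refine Fin.lastCases ?_ (fun j => ?_) i <;> simp [lastAxis, snocLin_apply]
  refine ⟨hA, W, hW, fun v => ?_, ?_⟩
  · rw [← (gain_slices hA.compact v).2, ← one_mul (gain A (v, 0)),
      ← gain_image (snocLin (k + 1)) hvolS, himg, ← hK.supportVal_gainBody, P227.Zono.supportVal,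
      P227.Zono.supportVal, ← image_comp]
    conv_rhs => rw [← himg (gainBody K), ← image_comp]
    congr 1
    refine image_congr fun p _ => ?_
    simp only [Function.comp_apply, snocLin_apply, dotProduct]
    rw [Fin.sum_univ_castSucc (n := k + 1)]
    simp only [Fin.snoc_castSucc, Fin.snoc_last, zero_mul, add_zero]
  · rw [← himg (gainBody K), ← haxis, gain_image (snocLin (k + 1)) hvolS,
      gain_vertical hG' hG'c zero_le_one, one_mul, one_mul]
    exact (Full.rad_pow (m := k) W).symm

end Vale.Agent.P237.W1
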