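import Vale.Agent.P237.W1.TwoFamilies
import Vale.Agent.P237.W1.Shadow
import Vale.Agent.P237.W1.Recursion

/-!
# P237: the equality cases from (W1) alone

In equality two independent normals have shadows that attain the bound, so the slices across each of
them are homothetic ellipsoids and the body is an ellipsoid. Hence (W1) in every dimension at least
four gives Petty's inequality together with its equality cases.
-/

namespace Vale.Agent.P237.W1

open MeasureTheory Set Function Topology Filter Matrix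
open scoped Pointwise
open Vale.Agent.P237.AllN (unitBall pettyConst RatioBound RatioEqual lastAxis exists_reflection
  lastAxis_dot_snoc measurePreserving_solid)
open Full (Cvx Solid lo hi rad ratio mixedVol)

variable {k : ℕ}

/-- A direction that attains the bound has homothetic elliptic slices. -/
theorem exists_sliceForm (hk : 1 ≤ k) (hIH : RatioBound k) (hEQ : RatioEqual k)
    {K : Set (Pt (k + 2))} (hK : P227.Zono.Body K) {v : Pt (k + 2)} (hv : v ≠ 0)
    (hle : gain (gainBody K) v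
      ≤ pettyConst (k + 1) * ((volume K).toReal ^ k * renyiGain K v)) :
    ∃ (c : ℝ) (Φ : Pt (k + 2) →ₗ[ℝ] Pt (k + 1)) (a : ℝ → Pt (k + 1)) (ρ : ℝ → ℝ),
      0 < c ∧ SliceForm K (c • v) Φ a ρ := by
  set c := √(v ⬝ᵥ v)
  have hvv : 0 < v ⬝ᵥ v :=
    lt_of_le_of_ne (Finset.sum_nonneg fun i _ => mul_self_nonneg _)
      fun h => hv (dotProduct_self_eq_zero.1 h.symm)
  have hc : 0 < c := Real.sqrt_pos.2 hvv
  set u := c⁻¹ • v with hudef
  have hcu : c • u = v := smul_inv_smul₀ hc.ne' v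
  have hu : u ⬝ᵥ u = 1 := by
    simp only [u, smul_dotProduct, dotProduct_smul, smul_eq_mul]
    rw [← Real.mul_self_sqrt hvv.le]
    show c⁻¹ * (c⁻¹ * (c * c)) = 1
    field_simp
  obtain ⟨R, hR, hinv, hadj, hRu⟩ := exists_reflection hu
  set K' := R '' K with hK'def
  have hK' : P227.Zono.Body K' := Full.body_image R hK
  set T : (Pt (k + 1) × ℝ) ≃ₗ[ℝ] Pt (k + 2) := (snocLin (k + 1)).trans R
  have hT : MeasurePreserving T volume volume := hR.comp (measurePreserving_snocLin (k + 1))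
  have hTu : ∀ p, u ⬝ᵥ T p = p.2 := fun p => by
    show u ⬝ᵥ R (snocLin (k + 1) p) = p.2
    rw [← hadj, hRu]
    exact lastAxis_dot_snoc p.1 p.2
  have hTA : T.symm '' K = snocLin (k + 1) ⁻¹' K' := by
    rw [T.image_symm_eq_preimage]
    ext p
    constructor
    · intro hp; exact ⟨_, hp, hinv _⟩
    · rintro ⟨y, hy, he⟩
      show R (snocLin (k + 1) p) ∈ K
      rwa [← he, hinv]
  have hRv : ∀ S : Set (Pt (k + 2)), (volume (R '' S)).toReal = 1 * (volume S).toReal := fun S => by
    rw [one_mul, R.image_eq_preimage_symm S, show (R.symm : Pt (k + 2) → Pt (k + 2)) = R from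
      funext fun x => R.symm_apply_eq.2 (hinv x).symm, hR.measure_preimage_emb
      R.toContinuousLinearEquiv.toHomeomorph.measurableEmbedding]
  have hgb : gainBody K' = R '' gainBody K := by
    ext y
    constructor
    · intro hy
      refine ⟨R y, fun w => ?_, hinv y⟩
      rw [hadj, ← one_mul (gain K w), ← gain_image R hRv]
      exact hy (R w)
    · rintro ⟨z, hz, rfl⟩ w
      conv_rhs => rw [← hinv w, hK'def, gain_image R hRv, one_mul]
      rw [hadj]
      exact hz (R w)
  obtain ⟨hA, W, hW, hsupp, hgW⟩ := exists_shadow (Cvx.of_body hK')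
  set A := snocLin (k + 1) ⁻¹' K'
  rw [hgb, ← hRu, gain_image R hRv, one_mul] at hgW
  rw [← hcu, (Cvx.of_body hK).cvx_gainBody.gain_homog u hc.le, renyiGain,
    integral_marginal hk hK hT hTu hc, hTA,
    mul_div_cancel₀ _ (pow_pos (Cvx.of_body hK).volume_pos k).ne', mul_left_comm,
    mul_le_mul_iff_right₀ hc, hgW] at hle
  have hrad : rad W ≤ pettyConst (k + 1) ^ (((k + 1 : ℕ) : ℝ)⁻¹)
      * ∫ t in Ioo (lo A) (hi A), rad (P237.slice A t) ^ k := by
    refine le_of_pow_le_pow_left₀ k.succ_ne_zero (mul_nonneg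
      (Real.rpow_nonneg (AllN.pettyConst_pos k).le _)
      (setIntegral_nonneg measurableSet_Ioo fun t _ => pow_nonneg (Full.rad_nonneg _) _)) ?_
    rwa [mul_pow, Real.rpow_inv_natCast_pow (AllN.pettyConst_pos k).le k.succ_ne_zero]
  obtain ⟨S, a, r, hslice⟩ := slices_ellipsoid hk hIH hEQ hA hW hsupp hrad
  set Φ : Pt (k + 2) →ₗ[ℝ] Pt (k + 1) :=
    S.symm.toLinearMap.comp ((LinearMap.fst ℝ _ _).comp T.symm.toLinearMap)
  refine ⟨c⁻¹, Φ, fun s => S.symm (a s), fun s => r s ^ 2, inv_pos.2 hc, ?_, fun x hx => ?_⟩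
  · intro x hx0 hΦ
    have h1 : (T.symm x).1 = 0 := S.symm.map_eq_zero_iff.1 hΦ
    have h2 : (T.symm x).2 = 0 := by
      rw [← hTu, T.apply_symm_apply]; exact hx0
    exact T.symm.map_eq_zero_iff.1 (Prod.ext h1 h2)
  · change |u ⬝ᵥ x| < P227.Zono.supportVal K u at hx
    show x ∈ K ↔ (Φ x - S.symm (a (u ⬝ᵥ x))) ⬝ᵥ (Φ x - S.symm (a (u ⬝ᵥ x))) ≤ r (u ⬝ᵥ x) ^ 2
    set p := T.symm x with hp
    have hp2 : p.2 = u ⬝ᵥ x := by rw [← hTu p, hp, T.apply_symm_apply]
    have hmem : x ∈ K ↔ p.1 ∈ P237.slice A p.2 := by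
      show x ∈ K ↔ p ∈ A
      rw [← hTA, hp]
      exact (T.symm.injective.mem_set_image).symm
    have hrange : u ⬝ᵥ x ∈ Ioo (lo A) (hi A) := by
      obtain ⟨y, hy, he⟩ := Full.exists_supportVal hK.compact (Cvx.of_body hK).nonempty u
      have key : ∀ z ∈ K, u ⬝ᵥ z ∈ Icc (lo A) (hi A) := fun z hz => by
        have hm : T.symm z ∈ A := hTA ▸ mem_image_of_mem _ hz
        have := hA.mem_Icc hm
        rwa [← hTu, T.apply_symm_apply] at this
      have a1 := key y hy
      have a2 := key (-y) (hK.neg_mem y hy)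
      rw [dotProduct_neg, he] at a2
      rw [he] at a1
      obtain ⟨b1, b2⟩ := abs_lt.1 hx
      exact ⟨by linarith [a2.1], by linarith [a1.2]⟩
    obtain ⟨hr, hs⟩ := hslice _ hrange
    have hΦ : Φ x = S.symm p.1 := rfl
    rw [hmem, hp2, hs, image_add_right, mem_preimage, S.image_eq_preimage_symm, mem_preimage,
      mem_smul_set_iff_inv_smul_mem₀ hr.ne', hΦ, ← map_sub, ← sub_eq_add_neg]
    show _ ≤ (1 : ℝ) ↔ _
    simp only [smul_dotProduct, dotProduct_smul, smul_eq_mul]
    rw [← mul_assoc, ← mul_inv, inv_mul_le_iff₀ (mul_pos hr hr), mul_one, sq]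

/-- If almost every normal attains the bound, the body is an ellipsoid. -/
theorem ellipsoid_of_normals (hk : 1 ≤ k) (hIH : RatioBound k) (hEQ : RatioEqual k)
    {K : Set (Pt (k + 2))} (hK : P227.Zono.Body K)
    (hgood : ∀ᵐ x ∂volume.restrict K, P227.Zono.normalAt K x ≠ 0 ∧
      gain (gainBody K) (P227.Zono.normalAt K x)
        ≤ pettyConst (k + 1) * ((volume K).toReal ^ k * renyiGain K (P227.Zono.normalAt K x))) :
    ∃ T : Pt (k + 2) ≃ₗ[ℝ] Pt (k + 2), K = T '' unitBall (k + 2) := by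
  have hC := Cvx.of_body hK
  have hV := hC.volume_pos
  set μ := volume.restrict K
  have hμ : ae μ |>.NeBot := ae_neBot.2 fun h => by
    rw [Measure.restrict_eq_zero] at h
    rw [h] at hV
    simp at hV
  obtain ⟨x₁, hx₁, hle₁⟩ := hgood.exists
  set v₁ := P227.Zono.normalAt K x₁
  obtain ⟨e, he, hve⟩ : ∃ e : Pt (k + 2), e ≠ 0 ∧ v₁ ⬝ᵥ e = 0 := by
    obtain ⟨e, he, hne'⟩ := Submodule.exists_mem_ne_zero_of_ne_bot
      (LinearMap.ker_ne_bot_of_finrank_lt (f := (Full.dotCLM v₁).toLinearMap) (by simp))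
    exact ⟨e, hne', LinearMap.mem_ker.1 he⟩
  obtain ⟨x₂, ⟨hx₂, hle₂⟩, he₂⟩ : ∃ x₂, (P227.Zono.normalAt K x₂ ≠ 0 ∧ gain (gainBody K) (P227.Zono.normalAt K x₂)
        ≤ pettyConst (k + 1) * ((volume K).toReal ^ k * renyiGain K (P227.Zono.normalAt K x₂))) ∧
      P227.Zono.normalAt K x₂ ⬝ᵥ e ≠ 0 := by
    by_contra hcon
    have h0 : (fun x => |P227.Zono.normalAt K x ⬝ᵥ e|) =ᵐ[μ] 0 := by
      filter_upwards [hgood] with x hx
      simp only [Pi.zero_apply, abs_eq_zero]
      by_contra h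
      exact hcon ⟨x, hx, h⟩
    have := hC.gain_pos he
    rw [hC.gain_eq, integral_congr_ae h0] at this
    simp at this
  set v₂ := P227.Zono.normalAt K x₂
  obtain ⟨c₁, Φ₁, a₁, ρ₁, hc₁, f₁⟩ := exists_sliceForm hk hIH hEQ hK hx₁ hle₁
  obtain ⟨c₂, Φ₂, a₂, ρ₂, hc₂, f₂⟩ := exists_sliceForm hk hIH hEQ hK hx₂ hle₂
  refine ellipsoid_of_two hk hK (fun a b hab => ?_) f₁ f₂
  have h := congrArg (· ⬝ᵥ e) hab
  simp only [add_dotProduct, smul_dotProduct, smul_eq_mul, zero_dotProduct, hve, mul_zero,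
    zero_add, mul_eq_zero, hc₂.ne', he₂, or_false] at h
  subst h
  rw [zero_smul, add_zero, smul_smul, smul_eq_zero] at hab
  exact ⟨by simpa [hx₁, hc₁.ne'] using hab, rfl⟩

/-- A symmetric body attaining Petty's bound is an ellipsoid. -/
theorem ellipsoid_of_ratio (hk : 1 ≤ k) (hIH : RatioBound k) (hEQ : RatioEqual k)
    {K : Set (Pt (k + 2))} (hK : P227.Zono.Body K)
    (hW : renyiBall k * (volume K).toReal ≤ ∫ x in K, renyiGain K (P227.Zono.normalAt K x))
    (hr : ratio K ≤ pettyConst (k + 2)) :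
    ∃ T : Pt (k + 2) ≃ₗ[ℝ] Pt (k + 2), K = T '' unitBall (k + 2) := by
  have hC := Cvx.of_body hK
  have hG := hC.cvx_gainBody
  have hV := hC.volume_pos
  have hP := AllN.pettyConst_pos k
  set μ := volume.restrict K
  set f := fun x => pettyConst (k + 1) * ((volume K).toReal ^ k
    * renyiGain K (P227.Zono.normalAt K x))
  set g := fun x => gain (gainBody K) (P227.Zono.normalAt K x)
  have hg : Integrable g μ := hC.integrableOn_comp hG.continuous_gain
  have hne : ∀ᵐ x ∂μ, P227.Zono.normalAt K x ≠ 0 := by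
    filter_upwards [ae_restrict_of_ae hC.supportVal_normal] with x hx h0
    obtain ⟨y, -, hy⟩ := Full.exists_supportVal hC.compact hC.nonempty (P227.Zono.normalAt K x)
    rw [hx, h0, zero_dotProduct] at hy
    exact zero_ne_one hy
  have hfg : f ≤ᵐ[μ] g := hne.mono fun x hx => renyi_le_gain hP.le hk hIH hK hx
  have hgf : ∫ x, g x ∂μ ≤ ∫ x, f x ∂μ := by
    rw [show ∫ x, g x ∂μ = (volume (gainBody K)).toReal by
      rw [← Full.mixedVol_second hC, mixedVol]
      simp only [g, hG.supportVal_gainBody, μ]]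
    rw [ratio, div_le_iff₀ (pow_pos hV _), pettyConst_step, pow_succ] at hr
    simp only [f, integral_const_mul]
    refine le_trans hr (le_trans (le_of_eq ?_)
      (mul_le_mul_of_nonneg_left (mul_le_mul_of_nonneg_left hW (pow_nonneg hV.le k)) hP.le))
    ring
  have hf : Integrable f μ := by
    by_contra h
    rw [integral_undef h] at hgf
    refine absurd hgf (not_le.2 ?_)
    have : ∫ x, g x ∂μ = (volume (gainBody K)).toReal := by
      rw [← Full.mixedVol_second hC, mixedVol]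
      simp only [g, hG.supportVal_gainBody, μ]
    rw [this]
    exact hG.volume_pos
  have hgood : ∀ᵐ x ∂μ, P227.Zono.normalAt K x ≠ 0 ∧ g x ≤ f x := by
    filter_upwards [hne, (integral_eq_iff_of_ae_le hf hg hfg).1
      (le_antisymm (integral_mono_ae hf hg hfg) hgf)] with x h1 h2
    exact ⟨h1, h2.ge⟩
  exact ellipsoid_of_normals hk hIH hEQ hK hgood

/-- In equality the body is an affine ball as soon as `Π Π L` is a centred one. -/
theorem affine_ball_of_fixed {L : Set (Pt (k + 2))} (hL : Cvx L)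
    (hlow : pettyConst (k + 2) ≤ ratio (gainBody L)) (hle : ratio L ≤ pettyConst (k + 2))
    (hT : ∃ T : Pt (k + 2) ≃ₗ[ℝ] Pt (k + 2),
      gainBody (gainBody L) = T '' unitBall (k + 2)) :
    ∃ (T : Pt (k + 2) ≃ₗ[ℝ] Pt (k + 2)) (a : Pt (k + 2)),
      L = (fun x => T x + a) '' unitBall (k + 2) := by
  obtain ⟨T, hT⟩ := hT
  obtain ⟨r, v, hr0, he⟩ :=
    Full.homothetic_of_ratio_eq (k := k) hL (hle.trans hlow)
  refine ⟨T.trans (LinearEquiv.smulOfUnit (Units.mk0 r hr0.ne')).symm, -(r⁻¹ • v), ?_⟩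
  rw [hT] at he
  have e : ∀ x, (T.trans (LinearEquiv.smulOfUnit (Units.mk0 r hr0.ne')).symm) x = r⁻¹ • T x :=
    fun x => rfl
  simp only [e]
  have h3 : (fun x => r⁻¹ • (x + -v)) '' (T '' unitBall (k + 2)) = L := by
    rw [he, ← image_smul, image_image, image_image]
    conv_rhs => rw [← image_id' L]
    refine image_congr fun x _ => ?_
    rw [add_neg_cancel_right, inv_smul_smul₀ hr0.ne']
  rw [← h3, image_image]
  refine image_congr fun x _ => ?_
  rw [smul_add, smul_neg]

/-- The equality cases pass from `ℝ^(k+1)` to `ℝ^(k+2)` by (W1) alone. -/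
theorem equal_step_bound (hk : 1 ≤ k) (hIH : RatioBound k) (hEQ : RatioEqual k)
    (hW : MeanBound k) : RatioEqual (k + 1) := by
  intro L hL hle
  have hlow := bound_step hk hIH hW
  have hL₁ := hL.cvx_gainBody
  have hK := hL₁.body_gainBody
  obtain ⟨T, hT⟩ := ellipsoid_of_ratio hk hIH hEQ hK (hW _ hK)
    ((Full.ratio_gainBody_le hL₁).trans ((Full.ratio_gainBody_le hL).trans hle))
  exact affine_ball_of_fixed hL (hlow _ hL₁) hle ⟨T, hT⟩

/-- (W1) in every dimension at least four gives the bound and the equality cases. -/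
theorem all_of_bound (hW : ∀ k, 2 ≤ k → MeanBound k) :
    ∀ m, 2 ≤ m → RatioBound m ∧ RatioEqual m := by
  intro m hm
  induction m, hm using Nat.le_induction with
  | base => exact ratio_two
  | succ m hm ih =>
    exact ⟨bound_step (by omega) ih.1 (hW m hm), equal_step_bound (by omega) ih.1 ih.2 (hW m hm)⟩

/-- Petty's inequality with its equality cases in every dimension from (W1) alone. -/
theorem petty_of_bound (hW : ∀ k, 2 ≤ k → MeanBound k) {n : ℕ} (hn : 3 ≤ n)
    {K : Set (EuclideanSpace ℝ (Fin n))} (hK : IsCompact K)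
    (hc : Convex ℝ K) (hi : (interior K).Nonempty) :
    unitBallVolume (n - 1) ^ n * unitBallVolume n ^ (2 - (n : ℤ)) * euclVolume n K ^ (n - 1)
        ≤ euclVolume n (projBody K) ∧
      (euclVolume n (projBody K)
          = unitBallVolume (n - 1) ^ n * unitBallVolume n ^ (2 - (n : ℤ)) * euclVolume n K ^ (n - 1) ↔
        ∃ (T : EuclideanSpace ℝ (Fin n) ≃ₗ[ℝ] EuclideanSpace ℝ (Fin n))
          (a : EuclideanSpace ℝ (Fin n)), K = (fun x => T x + a) '' Metric.closedBall 0 1) :=
  AllN.petty_all_of (all_of_bound hW) hn hK hc hi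

end Vale.Agent.P237.W1
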