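import Vale.Agent.P237.W1.Defs
import Vale.Agent.P237.AllN.Profile
import Vale.Agent.P237.AllN.Step

/-!
# P237: the projection volumes of the projection body dominate `renyiGain`

For every direction `u` the shadow of `Π K` across `u` is at least Petty's constant of the slices'
dimension times `V^k renyiGain K u`.
-/

namespace Vale.Agent.P237.W1

open MeasureTheory Set Function Topology Filter Matrix
open scoped ENNReal Pointwise Classical
open Vale.Agent.P237.AllN (measurePreserving_solid exists_reflection lastAxis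
  lastAxis_dot_snoc gain_gainBody_lastAxis)
open Full (Cvx Solid lo hi sliceVol rad ratio)

variable {k : ℕ}

/-- The marginal in adapted coordinates. -/
theorem marginal_ae {K : Set (Pt (k + 2))} (hK : P227.Zono.Body K) {u : Pt (k + 2)}
    {T : (Pt (k + 1) × ℝ) ≃ₗ[ℝ] Pt (k + 2)} (hT : MeasurePreserving T volume volume)
    (hu : ∀ p, u ⬝ᵥ T p = p.2) {c : ℝ} (hc : 0 < c) :
    ∀ᵐ s, marginal K (c • u) s = c⁻¹ * sliceVol (T.symm '' K) (c⁻¹ * s) := by
  set A := T.symm '' K with hAdef
  have hA : Solid A := measurePreserving_solid hK T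
  have hpre : T ⁻¹' K = A := (LinearEquiv.image_symm_eq_preimage T K).symm
  have hS : Measurable fun t => volume (P237.slice A t) :=
    measurable_measure_prodMk_right (μ := (volume : Measure (Pt (k + 1)))) hA.compact.measurableSet
  set g : ℝ → ℝ≥0∞ := fun s => ENNReal.ofReal c⁻¹ * volume (P237.slice A (c⁻¹ * s))
  have hg : Measurable g := measurable_const.mul (hS.comp (measurable_const_mul _))
  have hdot : Measurable fun x : Pt (k + 2) => (c • u) ⬝ᵥ x := (Full.continuous_dot _).measurable
  have hmap : Measure.map (fun x : Pt (k + 2) => (c • u) ⬝ᵥ x) (volume.restrict K)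
      = volume.withDensity g := by
    refine Measure.ext fun s hs => ?_
    rw [Measure.map_apply hdot hs, Measure.restrict_apply (hdot hs), withDensity_apply _ hs,
      ← hT.measure_preimage_emb T.toContinuousLinearEquiv.toHomeomorph.measurableEmbedding,
      preimage_inter, hpre, ← preimage_comp]
    have e : (fun x : Pt (k + 2) => (c • u) ⬝ᵥ x) ∘ T = fun p => c * p.2 := by
      funext p
      simp [hu]
    rw [e, Measure.volume_eq_prod, Measure.prod_apply_symm
      ((hs.preimage (measurable_snd.const_mul c)).inter hA.compact.measurableSet)]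
    have e2 : ∀ t, (fun x : Pt (k + 1) => (x, t)) ⁻¹' ((fun p : Pt (k + 1) × ℝ => c * p.2) ⁻¹' s ∩ A)
        = if c * t ∈ s then P237.slice A t else ∅ := fun t => by
      split_ifs with h <;> ext x <;> simp [P237.slice, h]
    simp only [e2]
    have e3 : ∀ t, volume (if c * t ∈ s then P237.slice A t else ∅)
        = ENNReal.ofReal c * s.indicator g (c * t) := fun t => by
      by_cases h : c * t ∈ s
      · rw [if_pos h, indicator_of_mem h]
        simp only [g]
        rw [inv_mul_cancel_left₀ hc.ne', ← mul_assoc, ← ENNReal.ofReal_mul hc.le,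
          mul_inv_cancel₀ hc.ne', ENNReal.ofReal_one, one_mul]
      · rw [if_neg h, indicator_of_notMem h, mul_zero, measure_empty]
    simp only [e3]
    rw [lintegral_const_mul' _ _ ENNReal.ofReal_ne_top,
      ← lintegral_map (hg.indicator hs) (measurable_const_mul c), Real.map_volume_mul_left hc.ne',
      lintegral_smul_measure, lintegral_indicator hs, abs_of_pos (inv_pos.2 hc), smul_eq_mul,
      ← mul_assoc, ← ENNReal.ofReal_mul hc.le, mul_inv_cancel₀ hc.ne', ENNReal.ofReal_one, one_mul]
  filter_upwards [Measure.rnDeriv_withDensity volume hg] with s hs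
  rw [marginal, hmap, hs]
  simp only [g]
  rw [ENNReal.toReal_mul, ENNReal.toReal_ofReal (inv_nonneg.2 hc.le)]
  rfl

/-- Powers of the marginal from the radii of the slices. -/
theorem integral_marginal {K : Set (Pt (k + 2))} (hk : 1 ≤ k) (hK : P227.Zono.Body K) {u : Pt (k + 2)}
    {T : (Pt (k + 1) × ℝ) ≃ₗ[ℝ] Pt (k + 2)} (hT : MeasurePreserving T volume volume)
    (hu : ∀ p, u ⬝ᵥ T p = p.2) {c : ℝ} (hc : 0 < c) :
    (∫ s, marginal K (c • u) s ^ ((k : ℝ) / (k + 1))) ^ (k + 1)
      = c * (∫ t in Ioo (lo (T.symm '' K)) (hi (T.symm '' K)),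
          rad (P237.slice (T.symm '' K) t) ^ k) ^ (k + 1) := by
  set A := T.symm '' K
  have hA : Solid A := measurePreserving_solid hK T
  set α : ℝ := (k : ℝ) / (k + 1) with hα
  have hα0 : 0 < α := div_pos (Nat.cast_pos.2 hk) (by positivity)
  have h1 : ∫ s, marginal K (c • u) s ^ α
      = c⁻¹ ^ α * ∫ s, sliceVol A (c⁻¹ * s) ^ α := by
    rw [← integral_const_mul]
    refine integral_congr_ae ((marginal_ae hK hT hu hc).mono fun s hs => ?_)
    simp only [hs]
    exact Real.mul_rpow (inv_nonneg.2 hc.le) ENNReal.toReal_nonneg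
  rw [h1, Measure.integral_comp_mul_left (fun t => sliceVol A t ^ α), inv_inv, abs_of_pos hc,
    smul_eq_mul]
  have h2 : ∫ t, sliceVol A t ^ α = ∫ t in Ioo (lo A) (hi A), rad (P237.slice A t) ^ k := by
    rw [← integral_Icc_eq_integral_Ioo, setIntegral_eq_integral_of_forall_compl_eq_zero (fun t ht => ?_)]
    · refine integral_congr_ae (Eventually.of_forall fun t => ?_)
      show (volume (P237.slice A t)).toReal ^ α = _
      simp only [rad]
      rw [← Real.rpow_natCast, ← Real.rpow_mul ENNReal.toReal_nonneg]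
      congr 1
      rw [hα]
      push_cast
      ring
    · have h0 : sliceVol A t = 0 := hA.sliceVol_eq_zero ht
      change (volume (P237.slice A t)).toReal = 0 at h0
      rw [rad, h0, Real.zero_rpow (by positivity), zero_pow (by omega)]
  rw [h2, ← mul_assoc, mul_pow]
  congr 1
  have e : c⁻¹ ^ α * c = c ^ (((k + 1 : ℕ) : ℝ)⁻¹) := by
    rw [Real.inv_rpow hc.le, ← Real.rpow_neg hc.le]
    nth_rw 2 [← Real.rpow_one c]
    rw [← Real.rpow_add hc]
    congr 1
    rw [hα]
    push_cast
    field_simp
    ring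
  rw [e, Real.rpow_inv_natCast_pow hc.le k.succ_ne_zero]

/-- The bound for one direction. -/
theorem renyi_le_gain {P : ℝ} (hP : 0 ≤ P) (hk : 1 ≤ k)
    (hIH : ∀ L : Set (Pt (k + 1)), Cvx L → P ≤ ratio L) {K : Set (Pt (k + 2))}
    (hK : P227.Zono.Body K) {v : Pt (k + 2)} (hv : v ≠ 0) :
    P * ((volume K).toReal ^ k * renyiGain K v) ≤ gain (gainBody K) v := by
  set c := √(v ⬝ᵥ v)
  have hvv : 0 < v ⬝ᵥ v :=
    lt_of_le_of_ne (Finset.sum_nonneg fun i _ => mul_self_nonneg _)
      fun h => hv (dotProduct_self_eq_zero.1 h.symm)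
  have hc : 0 < c := Real.sqrt_pos.2 hvv
  set u := c⁻¹ • v
  have hcu : c • u = v := smul_inv_smul₀ hc.ne' v
  have hu : u ⬝ᵥ u = 1 := by
    simp only [u, smul_dotProduct, dotProduct_smul, smul_eq_mul]
    rw [← Real.mul_self_sqrt hvv.le]
    show c⁻¹ * (c⁻¹ * (c * c)) = 1
    field_simp
  obtain ⟨R, hR, hinv, hadj, hRu⟩ := exists_reflection hu
  set K' := R '' K with hK'def
  have hK' : P227.Zono.Body K' := Full.body_image R hK
  set T : (Pt (k + 1) × ℝ) ≃ₗ[ℝ] Pt (k + 2) := (snocLin (k + 1)).trans R
  have hT : MeasurePreserving T volume volume := hR.comp (measurePreserving_snocLin (k + 1))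
  have hTu : ∀ p, u ⬝ᵥ T p = p.2 := fun p => by
    show u ⬝ᵥ R (snocLin (k + 1) p) = p.2
    rw [← hadj, hRu]
    exact lastAxis_dot_snoc p.1 p.2
  have hTA : T.symm '' K = snocLin (k + 1) ⁻¹' K' := by
    rw [T.image_symm_eq_preimage]
    ext p
    constructor
    · intro hp; exact ⟨_, hp, hinv _⟩
    · rintro ⟨y, hy, he⟩
      show R (snocLin (k + 1) p) ∈ K
      rwa [← he, hinv]
  have hg := gain_gainBody_lastAxis hP hIH (Cvx.of_body hK')
  rw [← hTA] at hg
  have hRv : ∀ S : Set (Pt (k + 2)), (volume (R '' S)).toReal = 1 * (volume S).toReal := fun S => by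
    rw [one_mul, R.image_eq_preimage_symm S, show (R.symm : Pt (k + 2) → Pt (k + 2)) = R from
      funext fun x => R.symm_apply_eq.2 (hinv x).symm, hR.measure_preimage_emb
      R.toContinuousLinearEquiv.toHomeomorph.measurableEmbedding]
  have hgb : gainBody K' = R '' gainBody K := by
    ext y
    constructor
    · intro hy
      refine ⟨R y, fun w => ?_, hinv y⟩
      rw [hadj, ← one_mul (gain K w), ← gain_image R hRv]
      exact hy (R w)
    · rintro ⟨z, hz, rfl⟩ w
      conv_rhs => rw [← hinv w, hK'def, gain_image R hRv, one_mul]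
      rw [hadj]
      exact hz (R w)
  rw [hgb, ← hRu, gain_image R hRv, one_mul] at hg
  rw [← hcu, (Cvx.of_body hK).cvx_gainBody.gain_homog u hc.le, renyiGain,
    integral_marginal hk hK hT hTu hc,
    mul_div_cancel₀ _ (pow_pos (Cvx.of_body hK).volume_pos k).ne', mul_left_comm]
  exact mul_le_mul_of_nonneg_left hg hc.le

theorem renyiGain_nonneg {K : Set (Pt (k + 2))} (u : Pt (k + 2)) : 0 ≤ renyiGain K u :=
  div_nonneg (pow_nonneg (integral_nonneg fun _ => Real.rpow_nonneg ENNReal.toReal_nonneg _) _)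
    (pow_nonneg ENNReal.toReal_nonneg _)

end Vale.Agent.P237.W1
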