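import Vale.Agent.P237.W1.Equality

/-!
# P237: the recursion from one normal

At a minimiser of the ratio the projection body of the projection body is a dilate of the body, so
in place of the mean in (W1) it is enough that no symmetric body has `renyiGain` at most the value
at balls at almost every normal without being equal to it there (`NormalBound`).
-/

namespace Vale.Agent.P237.W1

open MeasureTheory Set Function Filter Matrix
open Vale.Agent.P237.AllN (unitBall pettyConst RatioBound RatioEqual)
open Full (Cvx ratio)

variable {k : ℕ}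

/-- The form of (W1) for fixed bodies: `renyiGain` is at most the value at balls at almost every
normal only if it equals that value at almost every normal. -/
def NormalBound (k : ℕ) : Prop :=
  ∀ K : Set (Pt (k + 2)), P227.Zono.Body K →
    (∀ᵐ x ∂volume.restrict K, renyiGain K (P227.Zono.normalAt K x) ≤ renyiBall k) →
    ∀ᵐ x ∂volume.restrict K, renyiBall k ≤ renyiGain K (P227.Zono.normalAt K x)

/-- (W1) implies its form for fixed bodies. -/
theorem normalBound_of_meanBound (h : MeanBound k) : NormalBound k := by
  intro K hK hle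
  have hV := (Cvx.of_body hK).volume_pos
  have hfin : IsFiniteMeasure (volume.restrict K) :=
    isFiniteMeasure_restrict.2 hK.compact.measure_lt_top.ne
  have hR : 0 < renyiBall k := by
    have h1 := AllN.pettyConst_pos (k + 1)
    rw [pettyConst_step] at h1
    exact pos_of_mul_pos_right h1 (AllN.pettyConst_pos k).le
  have hm := h K hK
  have hf : IntegrableOn (fun x => renyiGain K (P227.Zono.normalAt K x)) K := by
    by_contra hn
    rw [integral_undef hn] at hm
    exact absurd hm (not_le.2 (mul_pos hR hV))
  have hconst : ∫ _x in K, renyiBall k = renyiBall k * (volume K).toReal := by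
    rw [setIntegral_const, smul_eq_mul, measureReal_def, mul_comm]
  exact ((integral_eq_iff_of_ae_le hf (integrable_const _) hle).1
    (le_antisymm (integral_mono_ae hf (integrable_const _) hle) (hconst.le.trans hm))).mono
    fun x hx => hx.ge

/-- A minimiser has at least the ratio of balls, with equality only for ellipsoids. -/
theorem minimiser_normal (hk : 1 ≤ k) (hIH : RatioBound k) (hW : NormalBound k)
    {K : Set (Pt (k + 2))} (hK : P227.Zono.Body K)
    (hmin : ∀ L : Set (Pt (k + 2)), Cvx L → ratio K ≤ ratio L) :
    pettyConst (k + 2) ≤ ratio K ∧ (RatioEqual k → ratio K ≤ pettyConst (k + 2) →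
      ∃ T : Pt (k + 2) ≃ₗ[ℝ] Pt (k + 2), K = T '' unitBall (k + 2)) := by
  obtain ⟨γ, -, -, hvol, hgain⟩ := Full.minimiser_structure hK hmin
  have hC := Cvx.of_body hK
  have hV := hC.volume_pos
  have hP := AllN.pettyConst_pos k
  set μ := volume.restrict K
  have hrat : ratio K = γ / (volume K).toReal ^ k := by
    rw [ratio, hvol, pow_succ, mul_div_mul_right _ _ hV.ne']
  have hnormal : ∀ᵐ x ∂μ, P227.Zono.normalAt K x ≠ 0 ∧
      gain (gainBody K) (P227.Zono.normalAt K x) = γ := by
    filter_upwards [ae_restrict_of_ae hC.supportVal_normal] with x hx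
    refine ⟨fun h0 => ?_, by rw [hgain, hx, mul_one]⟩
    obtain ⟨y, -, hy⟩ := Full.exists_supportVal hC.compact hC.nonempty (P227.Zono.normalAt K x)
    rw [hx, h0, zero_dotProduct] at hy
    exact zero_ne_one hy
  have hμ : ae μ |>.NeBot := ae_neBot.2 fun h => by
    rw [Measure.restrict_eq_zero] at h
    rw [h] at hV
    simp at hV
  have key : γ ≤ pettyConst (k + 2) * (volume K).toReal ^ k →
      ∀ᵐ x ∂μ, renyiBall k ≤ renyiGain K (P227.Zono.normalAt K x) := by
    intro hle
    rw [pettyConst_step] at hle
    refine hW K hK (hnormal.mono fun x hx => ?_)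
    have h := (renyi_le_gain hP.le hk hIH hK hx.1).trans (hx.2.le.trans hle)
    refine le_of_mul_le_mul_left ((le_of_eq ?_).trans (h.trans (le_of_eq ?_)))
      (mul_pos hP (pow_pos hV k))
    · ring
    · ring
  have hmul : ∀ x, renyiBall k ≤ renyiGain K (P227.Zono.normalAt K x) →
      pettyConst (k + 2) * (volume K).toReal ^ k ≤
        pettyConst (k + 1) * ((volume K).toReal ^ k * renyiGain K (P227.Zono.normalAt K x)) := by
    intro x hx
    refine le_trans (le_of_eq ?_)
      (mul_le_mul_of_nonneg_left (mul_le_mul_of_nonneg_left hx (pow_nonneg hV.le k)) hP.le)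
    rw [pettyConst_step]
    ring
  refine ⟨?_, fun hEQ hle => ellipsoid_of_normals hk hIH hEQ hK ?_⟩
  · rw [hrat, le_div_iff₀ (pow_pos hV k)]
    rcases le_total (pettyConst (k + 2) * (volume K).toReal ^ k) γ with h | h
    · exact h
    · obtain ⟨x, hx, hG⟩ := (hnormal.and (key h)).exists
      have hup := renyi_le_gain hP.le hk hIH hK hx.1
      rw [hx.2] at hup
      exact (hmul x hG).trans hup
  · rw [hrat, div_le_iff₀ (pow_pos hV k)] at hle
    filter_upwards [hnormal, key hle] with x hx hG
    exact ⟨hx.1, (hx.2.le.trans hle).trans (hmul x hG)⟩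

/-- Petty's inequality with its equality cases passes one dimension up. -/
theorem step_normal (hk : 1 ≤ k) (hIH : RatioBound k) (hEQ : RatioEqual k) (hW : NormalBound k) :
    RatioBound (k + 1) ∧ RatioEqual (k + 1) := by
  obtain ⟨K₀, hK₀, hmin₀⟩ := Full.exists_min (k + 1)
  have hlow : RatioBound (k + 1) := fun L hL =>
    (minimiser_normal hk hIH hW hK₀ hmin₀).1.trans (hmin₀ L hL)
  refine ⟨hlow, fun L hL hle => ?_⟩
  have h := (Full.ratio_gainBody_le hL.cvx_gainBody).trans ((Full.ratio_gainBody_le hL).trans hle)
  exact affine_ball_of_fixed hL (hlow _ hL.cvx_gainBody) hle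
    ((minimiser_normal hk hIH hW hL.cvx_gainBody.body_gainBody
      fun M hM => h.trans (hlow M hM)).2 hEQ h)

/-- The form of (W1) for fixed bodies in every dimension at least four gives Petty's inequality. -/
theorem petty_of_normal (hW : ∀ k, 2 ≤ k → NormalBound k) {n : ℕ} (hn : 3 ≤ n)
    {K : Set (EuclideanSpace ℝ (Fin n))} (hK : IsCompact K)
    (hc : Convex ℝ K) (hi : (interior K).Nonempty) :
    unitBallVolume (n - 1) ^ n * unitBallVolume n ^ (2 - (n : ℤ)) * euclVolume n K ^ (n - 1)
        ≤ euclVolume n (projBody K) ∧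
      (euclVolume n (projBody K)
          = unitBallVolume (n - 1) ^ n * unitBallVolume n ^ (2 - (n : ℤ)) * euclVolume n K ^ (n - 1) ↔
        ∃ (T : EuclideanSpace ℝ (Fin n) ≃ₗ[ℝ] EuclideanSpace ℝ (Fin n))
          (a : EuclideanSpace ℝ (Fin n)), K = (fun x => T x + a) '' Metric.closedBall 0 1) := by
  refine AllN.petty_all_of (fun m hm => ?_) hn hK hc hi
  induction m, hm using Nat.le_induction with
  | base => exact ratio_two
  | succ m hm ih => exact step_normal (by omega) ih.1 ih.2 (hW m hm)

end Vale.Agent.P237.W1
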