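import Vale.Agent.P237.AllN.Ball
import Vale.Agent.P237.Full.Basic

/-!
# P237: two families of parallel slices that are homothetic ellipsoids force an ellipsoid

A symmetric body in `ℝ^n`, `n ≥ 3`, all whose slices across each of two independent directions are
translates of dilates of one ellipsoid per direction, is a centred ellipsoid.
-/

namespace Vale.Agent.P237.W1

open MeasureTheory Set Function Topology Filter Matrix
open Vale.Agent.P237.AllN (unitBall)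
open Full (Cvx)

variable {k : ℕ}

/-- The slices of `K` across `u` are the balls of `Φ` around `a` with squared radius `ρ`. -/
structure SliceForm (K : Set (Pt (k + 2))) (u : Pt (k + 2)) (Φ : Pt (k + 2) →ₗ[ℝ] Pt (k + 1))
    (a : ℝ → Pt (k + 1)) (ρ : ℝ → ℝ) : Prop where
  inj : ∀ x, u ⬝ᵥ x = 0 → Φ x = 0 → x = 0
  mem : ∀ x, |u ⬝ᵥ x| < P227.Zono.supportVal K u →
    (x ∈ K ↔ (Φ x - a (u ⬝ᵥ x)) ⬝ᵥ (Φ x - a (u ⬝ᵥ x)) ≤ ρ (u ⬝ᵥ x))

variable {K : Set (Pt (k + 2))} {u w : Pt (k + 2)} {Φ : Pt (k + 2) →ₗ[ℝ] Pt (k + 1)}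
  {a : ℝ → Pt (k + 1)} {ρ : ℝ → ℝ}

theorem exists_inverse (hi : ∀ x, u ⬝ᵥ x = 0 → Φ x = 0 → x = 0) :
    ∃ L : Pt (k + 1) × ℝ →ₗ[ℝ] Pt (k + 2),
      (∀ p, Φ (L p) = p.1 ∧ u ⬝ᵥ L p = p.2) ∧ ∀ x, L (Φ x, u ⬝ᵥ x) = x := by
  set F : Pt (k + 2) →ₗ[ℝ] Pt (k + 1) × ℝ := Φ.prod (Full.dotCLM u).toLinearMap
  have hF : Injective F := (injective_iff_map_eq_zero F).2 fun x hx =>
    hi x (congrArg Prod.snd hx) (congrArg Prod.fst hx)
  set e := F.linearEquivOfInjective hF (by simp)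
  refine ⟨e.symm.toLinearMap, fun p => ?_, e.symm_apply_apply⟩
  have h : F (e.symm p) = p := e.apply_symm_apply p
  exact ⟨congrArg Prod.fst h, congrArg Prod.snd h⟩

/-- The axis of `u` inside the hyperplane across `w`, orthogonal for `Φ`. -/
theorem exists_axis (hi : ∀ x, w ⬝ᵥ x = 0 → Φ x = 0 → x = 0)
    (hx : ∃ x, w ⬝ᵥ x = 0 ∧ u ⬝ᵥ x ≠ 0) :
    ∃ e, u ⬝ᵥ e = 1 ∧ w ⬝ᵥ e = 0 ∧
      ∀ z, u ⬝ᵥ z = 0 → w ⬝ᵥ z = 0 → Φ e ⬝ᵥ Φ z = 0 := by
  obtain ⟨L, hL, hL'⟩ := exists_inverse hi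
  obtain ⟨g, hg⟩ := Full.exists_dot
    (((Full.dotCLM u).toLinearMap.comp L).comp (LinearMap.inl ℝ (Pt (k + 1)) ℝ))
  have hg' : ∀ z, w ⬝ᵥ z = 0 → u ⬝ᵥ z = g ⬝ᵥ Φ z := fun z hz => by
    have h : u ⬝ᵥ L (Φ z, 0) = g ⬝ᵥ Φ z := hg (Φ z)
    rwa [← hz, hL' z] at h
  have hg0 : g ⬝ᵥ g ≠ 0 := fun h => by
    obtain ⟨x, h1, h2⟩ := hx
    rw [hg' x h1, dotProduct_self_eq_zero.1 h, zero_dotProduct] at h2
    exact h2 rfl
  refine ⟨(g ⬝ᵥ g)⁻¹ • L (g, 0), ?_, ?_, fun z hu hw => ?_⟩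
  · rw [dotProduct_smul, hg' _ (hL _).2, (hL _).1, smul_eq_mul, inv_mul_cancel₀ hg0]
  · rw [dotProduct_smul, (hL _).2, smul_zero]
  · rw [map_smul, (hL _).1, smul_dotProduct, ← hg' z hw, hu, smul_zero]

/-- The sections parallel to the common hyperplane of `u` and `w`, from the slices across `u`. -/
theorem exists_sections (h : SliceForm K u Φ a ρ) {eu ew : Pt (k + 2)}
    (h1 : u ⬝ᵥ eu = 1) (h2 : w ⬝ᵥ eu = 0) (h3 : u ⬝ᵥ ew = 0) (h4 : w ⬝ᵥ ew = 1)
    (ho : ∀ z, u ⬝ᵥ z = 0 → w ⬝ᵥ z = 0 → Φ ew ⬝ᵥ Φ z = 0) :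
    ∃ (c : ℝ → Pt (k + 2)) (τ : ℝ → ℝ) (q : ℝ), 0 < q ∧ q = Φ ew ⬝ᵥ Φ ew ∧
      (∀ s, u ⬝ᵥ c s = 0 ∧ w ⬝ᵥ c s = 0) ∧
      (∀ z, u ⬝ᵥ z = 0 → w ⬝ᵥ z = 0 → ∀ s t, |s| < P227.Zono.supportVal K u →
        (z + s • eu + t • ew ∈ K ↔
          Φ (z - c s) ⬝ᵥ Φ (z - c s) + q * (t - τ s) ^ 2 ≤ ρ s)) := by
  obtain ⟨L, hL, -⟩ := exists_inverse h.inj
  set y : ℝ → Pt (k + 2) := fun s => L (a s - s • Φ eu, 0)
  have hyu : ∀ s, u ⬝ᵥ y s = 0 := fun s => (hL _).2
  have hyΦ : ∀ s, Φ (y s) = a s - s • Φ eu := fun s => (hL _).1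
  set c : ℝ → Pt (k + 2) := fun s => y s - (w ⬝ᵥ y s) • ew
  refine ⟨c, fun s => w ⬝ᵥ y s, Φ ew ⬝ᵥ Φ ew, ?_, rfl, fun s => ?_, fun z hzu hzw s t hs => ?_⟩
  · refine lt_of_le_of_ne (Finset.sum_nonneg fun i _ => mul_self_nonneg _) fun he => ?_
    have := h.inj ew h3 (dotProduct_self_eq_zero.1 he.symm)
    rw [this, dotProduct_zero] at h4
    exact zero_ne_one h4
  · constructor <;> simp [c, dotProduct_sub, dotProduct_smul, hyu, h3, h4]
  · have hus : u ⬝ᵥ (z + s • eu + t • ew) = s := by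
      simp [dotProduct_add, dotProduct_smul, hzu, h1, h3]
    rw [h.mem _ (by rwa [hus]), hus]
    have e : Φ (z + s • eu + t • ew) - a s = Φ (z - c s) + (t - w ⬝ᵥ y s) • Φ ew := by
      simp only [c, map_add, map_sub, map_smul, hyΦ]
      module
    have horth : Φ ew ⬝ᵥ Φ (z - c s) = 0 := ho _
      (by simp [c, dotProduct_sub, dotProduct_smul, hzu, hyu, h3])
      (by simp [c, dotProduct_sub, dotProduct_smul, hzw, h4])
    rw [e]
    simp only [add_dotProduct, dotProduct_add, smul_dotProduct, dotProduct_smul, smul_eq_mul,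
      dotProduct_comm (Φ (z - c s)) (Φ ew), horth]
    ring_nf

/-- An elliptic section has no second centre of symmetry. -/
theorem centre_eq {V : Type*} [AddCommGroup V] [Module ℝ V] {Φ : V →ₗ[ℝ] Pt (k + 1)} {c d : V}
    {A : ℝ} (hA : 0 ≤ A)
    (h : ∀ r : ℝ, Φ (r • (d - c)) ⬝ᵥ Φ (r • (d - c)) ≤ A →
      Φ ((2 - r) • (d - c)) ⬝ᵥ Φ ((2 - r) • (d - c)) ≤ A)
    (hi : Φ (d - c) = 0 → d = c) : d = c := by
  by_contra hdc
  set α := Φ (d - c) ⬝ᵥ Φ (d - c)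
  have hα : 0 < α := lt_of_le_of_ne (Finset.sum_nonneg fun i _ => mul_self_nonneg _)
    fun he => hdc (hi (dotProduct_self_eq_zero.1 he.symm))
  have hr : ∀ r : ℝ, Φ (r • (d - c)) ⬝ᵥ Φ (r • (d - c)) = r ^ 2 * α := fun r => by
    simp only [map_smul, smul_dotProduct, dotProduct_smul, smul_eq_mul, α]
    ring
  set l := √(A / α)
  have hl : l ^ 2 * α = A := by
    rw [Real.sq_sqrt (div_nonneg hA hα.le), div_mul_cancel₀ _ hα.ne']
  have h1 := h (-l) (by rw [hr, neg_sq, hl])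
  rw [hr, ← hl] at h1
  have := le_of_mul_le_mul_right h1 hα
  nlinarith [Real.sqrt_nonneg (A / α)]

/-- A locally affine function on an interval is affine. -/
theorem affine_of_local {F : ℝ → ℝ} {h : ℝ}
    (hloc : ∀ s₀ ∈ Ioo (-h) h, ∃ c₀ c₁ : ℝ, ∀ᶠ s in 𝓝 s₀, F s = c₀ + c₁ * s) :
    ∃ c₀ c₁ : ℝ, ∀ s ∈ Ioo (-h) h, F s = c₀ + c₁ * s := by
  rcases (Ioo (-h) h).eq_empty_or_nonempty with he | ⟨p, hp⟩
  · exact ⟨0, 0, by simp [he]⟩
  have hd : ∀ s₀ ∈ Ioo (-h) h, DifferentiableAt ℝ F s₀ ∧ HasDerivAt (deriv F) 0 s₀ := by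
    intro s₀ hs₀
    obtain ⟨c₀, c₁, hc⟩ := hloc s₀ hs₀
    have hder : ∀ᶠ s in 𝓝 s₀, HasDerivAt F c₁ s := by
      filter_upwards [hc.eventually_nhds] with s hs
      exact ((((hasDerivAt_id s).const_mul c₁).const_add c₀).congr_deriv
        (mul_one c₁)).congr_of_eventuallyEq hs
    exact ⟨hder.self_of_nhds.differentiableAt,
      (hasDerivAt_const s₀ c₁).congr_of_eventuallyEq (hder.mono fun s hs => hs.deriv)⟩
  set c₁ := deriv F p
  have hslope : ∀ s ∈ Ioo (-h) h, deriv F s = c₁ := fun s hs =>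
    isOpen_Ioo.is_const_of_deriv_eq_zero isPreconnected_Ioo
      (fun t ht => (hd t ht).2.differentiableAt.differentiableWithinAt)
      (fun t ht => (hd t ht).2.deriv) hs hp
  refine ⟨F p - c₁ * p, c₁, fun s hs => ?_⟩
  have hG : ∀ t ∈ Ioo (-h) h, HasDerivAt (fun t => F t - c₁ * t) 0 t := fun t ht => by
    have := (hd t ht).1.hasDerivAt.sub ((hasDerivAt_id t).const_mul c₁)
    rwa [hslope t ht, mul_one, sub_self] at this
  have := isOpen_Ioo.is_const_of_deriv_eq_zero (f := fun t => F t - c₁ * t) isPreconnected_Ioo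
    (fun t ht => (hG t ht).differentiableAt.differentiableWithinAt)
    (fun t ht => (hG t ht).deriv) hs hp
  linarith

theorem abs_dot_lt (hK : P227.Zono.Body K) (hu : u ≠ 0) {x : Pt (k + 2)} (hx : x ∈ interior K) :
    |u ⬝ᵥ x| < P227.Zono.supportVal K u := by
  have hc : Continuous fun r : ℝ => x + r • u := by fun_prop
  have h0 : ∀ᶠ r in 𝓝 (0 : ℝ), x + r • u ∈ interior K := hc.continuousAt.preimage_mem_nhds
    (isOpen_interior.mem_nhds (by simpa using hx))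
  obtain ⟨ε, hε, hball⟩ := Metric.eventually_nhds_iff.1 h0
  have huu : 0 < u ⬝ᵥ u := lt_of_le_of_ne (Finset.sum_nonneg fun i _ => mul_self_nonneg _)
    fun he => hu (dotProduct_self_eq_zero.1 he.symm)
  have hb : ∀ r, |r| < ε → u ⬝ᵥ x + r * (u ⬝ᵥ u) ≤ P227.Zono.supportVal K u ∧
      -(u ⬝ᵥ x + r * (u ⬝ᵥ u)) ≤ P227.Zono.supportVal K u := by
    intro r hr
    have hm : x + r • u ∈ K := interior_subset (hball (by simpa using hr))
    have a := Full.le_supportVal hK.compact hm u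
    have b := Full.le_supportVal hK.compact (hK.neg_mem _ hm) u
    simp only [dotProduct_neg, dotProduct_add, dotProduct_smul, smul_eq_mul] at a b
    exact ⟨a, b⟩
  rw [abs_lt]
  constructor
  · linarith [(hb (-(ε / 2)) (by rw [abs_neg, abs_of_pos (by positivity)]; linarith)).2,
      mul_pos (half_pos hε) huu]
  · linarith [(hb (ε / 2) (by rw [abs_of_pos (by positivity)]; linarith)).1,
      mul_pos (half_pos hε) huu]

/-- Every height strictly inside is reached by an interior point. -/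
theorem exists_interior_height (hK : P227.Zono.Body K) {s : ℝ}
    (hs : |s| < P227.Zono.supportVal K u) : ∃ x ∈ interior K, u ⬝ᵥ x = s := by
  set h := P227.Zono.supportVal K u
  have hh : 0 < h := (abs_nonneg s).trans_lt hs
  obtain ⟨y, hy, he⟩ := Full.exists_supportVal hK.compact (Cvx.of_body hK).nonempty u
  set r := s / h
  have hr : |r| < 1 := by rwa [abs_div, abs_of_pos hh, div_lt_one hh]
  obtain ⟨z, hz, hzr⟩ : ∃ z ∈ K, |r| • z = r • y := by
    rcases abs_choice r with h' | h'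
    · exact ⟨y, hy, by rw [h']⟩
    · exact ⟨-y, hK.neg_mem y hy, by rw [h', neg_smul, smul_neg, neg_neg]⟩
  refine ⟨|r| • z, ?_, ?_⟩
  · have := hK.convex.combo_interior_self_mem_interior
      hK.zero_interior hz (by linarith : (0 : ℝ) < 1 - |r|) (abs_nonneg r) (by ring)
    simpa using this
  · rw [hzr, dotProduct_smul, he, smul_eq_mul, div_mul_cancel₀ _ hh.ne']

/-- Two families of homothetic elliptic slices force an ellipsoid. -/
theorem ellipsoid_of_two (hk : 1 ≤ k) (hK : P227.Zono.Body K)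
    (hind : ∀ a b : ℝ, a • u + b • w = 0 → a = 0 ∧ b = 0)
    {Φ₁ Φ₂ : Pt (k + 2) →ₗ[ℝ] Pt (k + 1)} {a₁ a₂ : ℝ → Pt (k + 1)} {ρ₁ ρ₂ : ℝ → ℝ}
    (f₁ : SliceForm K u Φ₁ a₁ ρ₁) (f₂ : SliceForm K w Φ₂ a₂ ρ₂) :
    ∃ T : Pt (k + 2) ≃ₗ[ℝ] Pt (k + 2), K = T '' unitBall (k + 2) := by
  have hu0 : u ≠ 0 := fun h => by simpa using hind 1 0 (by simp [h])
  have hw0 : w ≠ 0 := fun h => by simpa using hind 0 1 (by simp [h])
  have hindep : ∀ {u w : Pt (k + 2)}, (∀ a b : ℝ, a • u + b • w = 0 → a = 0 ∧ b = 0) →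
      ∃ x, w ⬝ᵥ x = 0 ∧ u ⬝ᵥ x ≠ 0 := by
    intro u w hind
    by_contra h
    push Not at h
    have hw : w ⬝ᵥ w ≠ 0 := fun h0 => by
      simpa using hind 0 1 (by simp [dotProduct_self_eq_zero.1 h0])
    set x := u - ((w ⬝ᵥ u) / (w ⬝ᵥ w)) • w
    have hx : w ⬝ᵥ x = 0 := by
      simp [x, dotProduct_sub, dotProduct_smul, div_mul_cancel₀ _ hw]
    have h2 := h x hx
    have h3 : x ⬝ᵥ x = 0 := by
      simp only [x, sub_dotProduct, smul_dotProduct, smul_eq_mul] at h2 hx ⊢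
      rw [h2, hx]; simp
    have := hind 1 (-((w ⬝ᵥ u) / (w ⬝ᵥ w))) (by
      rw [one_smul, neg_smul, ← sub_eq_add_neg]; exact dotProduct_self_eq_zero.1 h3)
    exact one_ne_zero this.1
  obtain ⟨eu, h1, h2, ho2⟩ := exists_axis (u := u) f₂.inj (hindep hind)
  obtain ⟨ew, h4, h3, ho1⟩ := exists_axis (u := w) f₁.inj
    (hindep fun a b hab => (hind b a ((add_comm _ _).trans hab)).symm)
  have ho1' : ∀ z, u ⬝ᵥ z = 0 → w ⬝ᵥ z = 0 → Φ₁ ew ⬝ᵥ Φ₁ z = 0 := fun z a b => ho1 z b a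
  obtain ⟨c, τ, q, hq, hqdef, hc, hsec⟩ := exists_sections f₁ h1 h2 h3 h4 ho1'
  obtain ⟨d, σ, p, hp, -, hd, hsec'⟩ := exists_sections f₂ h4 h3 h2 h1
    (fun z a b => ho2 z b a)
  set G₁ : Pt (k + 2) → ℝ := fun z => Φ₁ z ⬝ᵥ Φ₁ z with hG₁
  set G₂ : Pt (k + 2) → ℝ := fun z => Φ₂ z ⬝ᵥ Φ₂ z with hG₂
  set hs := P227.Zono.supportVal K u
  set ht := P227.Zono.supportVal K w
  set A : ℝ → ℝ → ℝ := fun s t => ρ₁ s - q * (t - τ s) ^ 2
  set B : ℝ → ℝ → ℝ := fun s t => ρ₂ t - p * (s - σ t) ^ 2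
  have hA : ∀ z, u ⬝ᵥ z = 0 → w ⬝ᵥ z = 0 → ∀ s t, |s| < hs →
      (z + s • eu + t • ew ∈ K ↔ G₁ (z - c s) ≤ A s t) := fun z a b s t h => by
    rw [hsec z a b s t h]; simp only [A, G₁]; constructor <;> intro <;> linarith
  have hB : ∀ z, u ⬝ᵥ z = 0 → w ⬝ᵥ z = 0 → ∀ s t, |t| < ht →
      (z + s • eu + t • ew ∈ K ↔ G₂ (z - d t) ≤ B s t) := fun z a b s t h => by
    rw [add_right_comm, hsec' z b a t s h]; simp only [B, G₂]; constructor <;> intro <;> linarith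
  have hsplit : ∀ x, u ⬝ᵥ (x - (u ⬝ᵥ x) • eu - (w ⬝ᵥ x) • ew) = 0 ∧
      w ⬝ᵥ (x - (u ⬝ᵥ x) • eu - (w ⬝ᵥ x) • ew) = 0 := fun x => by
    constructor <;> simp [dotProduct_sub, dotProduct_smul, h1, h2, h3, h4]
  have hα : ∀ {v : Pt (k + 1)}, 0 ≤ v ⬝ᵥ v :=
    fun {v} => Finset.sum_nonneg fun i _ => mul_self_nonneg _
  have hpt : ∀ z, u ⬝ᵥ z = 0 → w ⬝ᵥ z = 0 → ∀ s t,
      u ⬝ᵥ (z + s • eu + t • ew) = s ∧ w ⬝ᵥ (z + s • eu + t • ew) = t := fun z a b s t => by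
    simp [dotProduct_add, dotProduct_smul, a, b, h1, h2, h3, h4]
  have hsym : ∀ z, ∀ s t : ℝ, z + s • eu + t • ew ∈ K → -z + (-s) • eu + (-t) • ew ∈ K := by
    intro z s t h
    have := hK.neg_mem _ h
    rwa [show -(z + s • eu + t • ew) = -z + (-s) • eu + (-t) • ew by module] at this
  have hs0 : 0 < hs := by simpa using abs_dot_lt (u := u) hK hu0 hK.zero_interior
  have ht0 : 0 < ht := by simpa using abs_dot_lt (u := w) hK hw0 hK.zero_interior
  have hcont : ∀ z, Continuous fun st : ℝ × ℝ => z + st.1 • eu + st.2 • ew := fun z => by fun_prop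
  have hlocal : ∀ x ∈ interior K, ∃ δ : ℝ, 0 < δ ∧ ∀ s t, |s - u ⬝ᵥ x| < δ → |t - w ⬝ᵥ x| < δ →
      |s| < hs ∧ |t| < ht ∧
        (x - (u ⬝ᵥ x) • eu - (w ⬝ᵥ x) • ew) + s • eu + t • ew ∈ K := by
    intro x hx
    set z := x - (u ⬝ᵥ x) • eu - (w ⬝ᵥ x) • ew
    have h0 : z + (u ⬝ᵥ x) • eu + (w ⬝ᵥ x) • ew = x := by simp only [z]; module
    have hev := (hcont z).continuousAt.preimage_mem_nhds (x := (u ⬝ᵥ x, w ⬝ᵥ x))
      (isOpen_interior.mem_nhds (show _ ∈ interior K by rwa [h0]))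
    obtain ⟨δ, hδ, hball⟩ := Metric.mem_nhds_iff.1 hev
    refine ⟨δ, hδ, fun s t a b => ?_⟩
    have hm : z + s • eu + t • ew ∈ interior K := hball (show (s, t) ∈ Metric.ball _ δ by
      simp [Metric.mem_ball, Prod.dist_eq, Real.dist_eq, a, b])
    obtain ⟨e1, e2⟩ := hpt z (hsplit x).1 (hsplit x).2 s t
    exact ⟨e1 ▸ abs_dot_lt (u := u) hK hu0 hm, e2 ▸ abs_dot_lt (u := w) hK hw0 hm,
      interior_subset hm⟩
  -- the centres
  have hcd : ∀ s t, |s| < hs → |t| < ht →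
      (∃ z, u ⬝ᵥ z = 0 ∧ w ⬝ᵥ z = 0 ∧ z + s • eu + t • ew ∈ K) → d t = c s := by
    rintro s t a b ⟨z, zu, zw, hz⟩
    refine centre_eq (Φ := Φ₁) (A := A s t) (le_trans hα ((hA z zu zw s t a).1 hz))
      (fun r hr => ?_) fun h => sub_eq_zero.1 (f₁.inj _ (by
        simp [dotProduct_sub, (hd t).2, (hc s).1]) h)
    have key : ∀ r : ℝ, Φ₁ (r • (d t - c s)) ⬝ᵥ Φ₁ (r • (d t - c s)) ≤ A s t ↔
        G₂ ((r - 1) • (d t - c s)) ≤ B s t := fun r => by
      have xu : u ⬝ᵥ (c s + r • (d t - c s)) = 0 := by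
        simp [dotProduct_add, dotProduct_smul, dotProduct_sub, (hd t).2, (hc s).1]
      have xw : w ⬝ᵥ (c s + r • (d t - c s)) = 0 := by
        simp [dotProduct_add, dotProduct_smul, dotProduct_sub, (hd t).1, (hc s).2]
      have e := (hA _ xu xw s t a).symm.trans (hB _ xu xw s t b)
      rwa [add_sub_cancel_left,
        show c s + r • (d t - c s) - d t = (r - 1) • (d t - c s) by module] at e
    rw [key] at hr ⊢
    rw [show (2 - r - 1) • (d t - c s) = -((r - 1) • (d t - c s)) by module]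
    simp only [G₂] at hr ⊢
    rwa [map_neg, neg_dotProduct_neg]
  have h00 : (0 : Pt (k + 2)) + (0 : ℝ) • eu + (0 : ℝ) • ew ∈ K := by
    simpa using (Cvx.of_body hK).zero_mem
  have hd0 : d 0 = 0 := by
    symm
    refine centre_eq (Φ := Φ₂) (A := B 0 0)
      (le_trans hα ((hB 0 (by simp) (by simp) 0 0 (by simpa using ht0)).1 h00)) (fun r hr => ?_)
      fun h => sub_eq_zero.1 (f₂.inj _ (by simp [(hd 0).1]) h)
    have e : ∀ r : ℝ, d 0 + r • (0 - d 0) - d 0 = r • (0 - d 0) := fun r => by module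
    have xu : ∀ r : ℝ, u ⬝ᵥ (d 0 + r • (0 - d 0)) = 0 ∧ w ⬝ᵥ (d 0 + r • (0 - d 0)) = 0 := fun r => by
      simp [dotProduct_add, dotProduct_smul, (hd 0).1, (hd 0).2]
    have h5 := (hB _ (xu r).1 (xu r).2 0 0 (by simpa using ht0)).2 (by rw [e]; exact hr)
    have h6 := hsym (d 0 + r • (0 - d 0)) 0 0 h5
    rw [neg_zero, show -(d 0 + r • (0 - d 0)) = d 0 + (2 - r) • (0 - d 0) by module] at h6
    have h7 := (hB _ (xu (2 - r)).1 (xu (2 - r)).2 0 0 (by simpa using ht0)).1 h6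
    rw [e] at h7
    exact h7
  -- a small square around the origin
  obtain ⟨δ₀, hδ₀, hsq⟩ := hlocal 0 hK.zero_interior
  simp only [dotProduct_zero, sub_zero, zero_smul] at hsq
  have hc0 : ∀ s, |s| < hs → c s = 0 := by
    intro s hs'
    funext i
    obtain ⟨c₀, c₁, hci⟩ := affine_of_local (F := fun s => c s i) (h := hs) fun s₀ h₀ => by
      obtain ⟨x, hx, rfl⟩ := exists_interior_height hK (abs_lt.2 h₀)
      obtain ⟨δ, hδ, hl⟩ := hlocal x hx
      refine ⟨d (w ⬝ᵥ x) i, 0, Metric.eventually_nhds_iff.2 ⟨δ, hδ, fun s hsx => ?_⟩⟩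
      obtain ⟨a, b, hz⟩ := hl s (w ⬝ᵥ x) (by rwa [← Real.dist_eq]) (by simpa using hδ)
      rw [hcd s _ a b ⟨_, (hsplit x).1, (hsplit x).2, hz⟩]
      ring
    have hnear : ∀ s, |s| < δ₀ → c₀ + c₁ * s = 0 := fun s hsd => by
      obtain ⟨a, b, hz⟩ := hsq s 0 hsd (by simpa using hδ₀)
      rw [← hci s (abs_lt.1 a), ← hcd s 0 a b ⟨0, by simp, by simp, by simpa using hz⟩, hd0]
      rfl
    have e0 := hnear 0 (by simpa using hδ₀)
    have e1 := hnear (δ₀ / 2) (by rw [abs_of_pos (by positivity)]; linarith)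
    have hc1 : c₁ = 0 := by
      have : c₁ * (δ₀ / 2) = 0 := by linarith
      simpa [hδ₀.ne'] using this
    show c s i = 0
    rw [show c s i = c₀ + c₁ * s from hci s (abs_lt.1 hs'), hc1]
    linarith
  -- a direction common to both families
  obtain ⟨z₀, hz0u, hz0w, hz0⟩ : ∃ z, u ⬝ᵥ z = 0 ∧ w ⬝ᵥ z = 0 ∧ z ≠ 0 := by
    set ψ := (Full.dotCLM u).toLinearMap.prod (Full.dotCLM w).toLinearMap
    obtain ⟨z, hz, hne⟩ := Submodule.exists_mem_ne_zero_of_ne_bot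
      (LinearMap.ker_ne_bot_of_finrank_lt (f := ψ) (by simp; omega))
    rw [LinearMap.mem_ker] at hz
    exact ⟨z, congrArg Prod.fst hz, congrArg Prod.snd hz, hne⟩
  set α := G₁ z₀ with hαd
  set β := G₂ z₀ with hβd
  have hαp : 0 < α := lt_of_le_of_ne hα fun he =>
    hz0 (f₁.inj z₀ hz0u (dotProduct_self_eq_zero.1 he.symm))
  have hβp : 0 < β := lt_of_le_of_ne hα fun he =>
    hz0 (f₂.inj z₀ hz0w (dotProduct_self_eq_zero.1 he.symm))
  have hsc₁ : ∀ r : ℝ, G₁ (r • z₀) = r ^ 2 * α := fun r => by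
    simp only [G₁, α, map_smul, smul_dotProduct, dotProduct_smul, smul_eq_mul]
    ring
  have hsc₂ : ∀ r : ℝ, G₂ (r • z₀) = r ^ 2 * β := fun r => by
    simp only [G₂, β, map_smul, smul_dotProduct, dotProduct_smul, smul_eq_mul]
    ring
  have hr0 : ∀ r : ℝ, u ⬝ᵥ (r • z₀) = 0 ∧ w ⬝ᵥ (r • z₀) = 0 := fun r => by
    simp [dotProduct_smul, hz0u, hz0w]
  have hAB : ∀ s t, |s| < hs → |t| < ht →
      (∃ z, u ⬝ᵥ z = 0 ∧ w ⬝ᵥ z = 0 ∧ z + s • eu + t • ew ∈ K) → β * A s t = α * B s t := by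
    intro s t a b hz
    have hcs := hc0 s a
    have hdt : d t = 0 := (hcd s t a b hz).trans hcs
    obtain ⟨z, zu, zw, hzK⟩ := hz
    have hA0 : 0 ≤ A s t := hα.trans ((hA z zu zw s t a).1 hzK)
    have hB0 : 0 ≤ B s t := hα.trans ((hB z zu zw s t b).1 hzK)
    have key : ∀ r : ℝ, r ^ 2 * α ≤ A s t ↔ r ^ 2 * β ≤ B s t := fun r => by
      have e := (hA _ (hr0 r).1 (hr0 r).2 s t a).symm.trans (hB _ (hr0 r).1 (hr0 r).2 s t b)
      rwa [hcs, hdt, sub_zero, hsc₁, hsc₂] at e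
    have k1 := (key √(A s t / α)).1 (by
      rw [Real.sq_sqrt (div_nonneg hA0 hαp.le), div_mul_cancel₀ _ hαp.ne'])
    have k2 := (key √(B s t / β)).2 (by
      rw [Real.sq_sqrt (div_nonneg hB0 hβp.le), div_mul_cancel₀ _ hβp.ne'])
    rw [Real.sq_sqrt (div_nonneg hA0 hαp.le), div_mul_eq_mul_div, div_le_iff₀ hαp] at k1
    rw [Real.sq_sqrt (div_nonneg hB0 hβp.le), div_mul_eq_mul_div, div_le_iff₀ hβp] at k2
    linarith
  -- the radii
  obtain ⟨τ₀, τ₁, hτ⟩ := affine_of_local (F := τ) (h := hs) fun s₀ h₀ => by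
    obtain ⟨x, hx, rfl⟩ := exists_interior_height hK (abs_lt.2 h₀)
    obtain ⟨δ, hδ, hl⟩ := hlocal x hx
    set t₀ := w ⬝ᵥ x
    set D := δ / 2 with hD
    set C := 4 * D * β * q
    have hC : C ≠ 0 := by positivity
    refine ⟨t₀ + α * (ρ₂ (t₀ + D) - ρ₂ (t₀ - D) - p * σ (t₀ + D) ^ 2 + p * σ (t₀ - D) ^ 2) / C,
      α * (2 * p * (σ (t₀ + D) - σ (t₀ - D))) / C,
      Metric.eventually_nhds_iff.2 ⟨δ, hδ, fun s hsx => ?_⟩⟩
    have hh : ∀ e, |e| < δ → β * A s (t₀ + e) = α * B s (t₀ + e) := fun e he => by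
      obtain ⟨a, b, hz⟩ := hl s (t₀ + e) (by rwa [← Real.dist_eq]) (by simpa using he)
      exact hAB s _ a b ⟨_, (hsplit x).1, (hsplit x).2, hz⟩
    have ha := hh D (by rw [abs_of_pos (by positivity)]; linarith)
    have hb := hh (-D) (by rw [abs_neg, abs_of_pos (by positivity)]; linarith)
    rw [← sub_eq_add_neg] at hb
    simp only [A, B] at ha hb
    rw [div_mul_eq_mul_div, add_assoc, ← add_div, eq_comm, ← eq_sub_iff_add_eq',
      div_eq_iff hC]
    simp only [C]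
    linear_combination hb - ha
  set a := α * p / β
  obtain ⟨e, f, hF⟩ := affine_of_local (F := fun s => ρ₁ s - q * τ s ^ 2 + a * s ^ 2) (h := hs)
    fun s₀ h₀ => by
    obtain ⟨x, hx, rfl⟩ := exists_interior_height hK (abs_lt.2 h₀)
    obtain ⟨δ, hδ, hl⟩ := hlocal x hx
    set t₀ := w ⬝ᵥ x
    refine ⟨q * (t₀ ^ 2 - 2 * t₀ * τ₀) + α / β * (ρ₂ t₀ - p * σ t₀ ^ 2),
      -(2 * q * t₀ * τ₁) + α / β * (2 * p * σ t₀),
      Metric.eventually_nhds_iff.2 ⟨δ, hδ, fun s hsx => ?_⟩⟩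
    obtain ⟨ha, hb, hz⟩ := hl s t₀ (by rwa [← Real.dist_eq]) (by simpa using hδ)
    have h := hAB s _ ha hb ⟨_, (hsplit x).1, (hsplit x).2, hz⟩
    simp only [A, B, hτ s (abs_lt.1 ha)] at h
    simp only [a, hτ s (abs_lt.1 ha)]
    field_simp
    linear_combination h
  have hA' : ∀ s t, |s| < hs →
      A s t = e + f * s - a * s ^ 2 - q * t ^ 2 + 2 * q * t * (τ₀ + τ₁ * s) := fun s t hs' => by
    have h := hF s (abs_lt.1 hs')
    simp only [hτ s (abs_lt.1 hs')] at h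
    simp only [A, hτ s (abs_lt.1 hs')]
    linear_combination h
  have heven : ∀ s t, |s| < δ₀ → |t| < δ₀ → A (-s) (-t) = A s t := by
    have hle : ∀ s t, |s| < δ₀ → |t| < δ₀ → A s t ≤ A (-s) (-t) := fun s t a b => by
      obtain ⟨a', -, hz⟩ := hsq s t a b
      have hA0 : 0 ≤ A s t := hα.trans ((hA 0 (by simp) (by simp) s t a').1 hz)
      set r := √(A s t / α)
      have hr : r ^ 2 * α = A s t := by
        rw [Real.sq_sqrt (div_nonneg hA0 hαp.le), div_mul_cancel₀ _ hαp.ne']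
      have hm := hsym (r • z₀) s t ((hA _ (hr0 r).1 (hr0 r).2 s t a').2
        (by rw [hc0 s a', sub_zero, hsc₁, hr]))
      rw [← neg_smul r z₀] at hm
      have := (hA _ (hr0 (-r)).1 (hr0 (-r)).2 _ _ (by rwa [abs_neg])).1 hm
      rwa [hc0 _ (by rwa [abs_neg]), sub_zero, hsc₁, neg_sq, hr] at this
    intro s t a b
    have := hle (-s) (-t) (by rwa [abs_neg]) (by rwa [abs_neg])
    rw [neg_neg, neg_neg] at this
    exact le_antisymm this (hle s t a b)
  have hhalf : |δ₀ / 2| < δ₀ := by rw [abs_of_pos (by positivity)]; linarith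
  have hδs : |δ₀ / 2| < hs := (hsq _ 0 hhalf (by simpa using hδ₀)).1
  have hτ0 : τ₀ = 0 := by
    have h := heven 0 (δ₀ / 2) (by simpa using hδ₀) hhalf
    rw [hA' _ _ (by simpa using hs0), hA' _ _ (by simpa using hs0)] at h
    have : q * δ₀ * τ₀ = 0 := by linear_combination (-(1 / 2 : ℝ)) * h
    simpa [hq.ne', hδ₀.ne'] using this
  have hf : f = 0 := by
    have h := heven (δ₀ / 2) 0 hhalf (by simpa using hδ₀)
    rw [hA' _ _ (by rwa [abs_neg]), hA' _ _ hδs, hτ0] at h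
    have : f * δ₀ = 0 := by linear_combination (-1 : ℝ) * h
    simpa [hδ₀.ne'] using this
  set b := a - q * τ₁ ^ 2
  have hA2 : ∀ s t, |s| < hs → A s t = e - b * s ^ 2 - q * (t - τ₁ * s) ^ 2 := fun s t hs' => by
    rw [hA' s t hs', hτ0, hf]; simp only [b]; ring
  -- the quadratic form
  set v := eu + τ₁ • ew
  have hvu : u ⬝ᵥ v = 1 := by simp [v, dotProduct_add, dotProduct_smul, h1, h3]
  set P : Pt (k + 2) → ℝ := fun x =>
    G₁ (x - (u ⬝ᵥ x) • v) + b * (u ⬝ᵥ x) ^ 2 with hPdef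
  have hP : ∀ z, u ⬝ᵥ z = 0 → w ⬝ᵥ z = 0 → ∀ s t,
      P (z + s • eu + t • ew) = G₁ z + b * s ^ 2 + q * (t - τ₁ * s) ^ 2 := by
    intro z zu zw s t
    have hqe : q = Φ₁ ew ⬝ᵥ Φ₁ ew := hqdef
    simp only [P, G₁, (hpt z zu zw s t).1]
    rw [show z + s • eu + t • ew - s • v = z + (t - τ₁ * s) • ew by simp only [v]; module]
    simp only [map_add, map_smul, add_dotProduct, dotProduct_add, smul_dotProduct, dotProduct_smul,
      smul_eq_mul, dotProduct_comm (Φ₁ z) (Φ₁ ew), ho1' z zu zw, hqe]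
    ring
  have hin : ∀ x, |u ⬝ᵥ x| < hs → (x ∈ K ↔ P x ≤ e) := by
    intro x hx
    have hx' : (x - (u ⬝ᵥ x) • eu - (w ⬝ᵥ x) • ew) + (u ⬝ᵥ x) • eu + (w ⬝ᵥ x) • ew = x := by
      module
    conv_lhs => rw [← hx']
    conv_rhs => rw [← hx']
    rw [hA _ (hsplit x).1 (hsplit x).2 _ _ hx, hP _ (hsplit x).1 (hsplit x).2, hc0 _ hx, sub_zero,
      hA2 _ _ hx]
    constructor <;> intro <;> linarith
  have he : 0 < e := by
    obtain ⟨ε, hε, hεK⟩ := Metric.mem_nhds_iff.1 ((show Continuous fun r : ℝ =>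
      r • z₀ by fun_prop).continuousAt.preimage_mem_nhds (x := (0 : ℝ))
      (show K ∈ 𝓝 ((0 : ℝ) • z₀) by simpa using (Cvx.of_body hK).nhds))
    have hm : (ε / 2) • z₀ ∈ K := hεK (show ε / 2 ∈ Metric.ball (0 : ℝ) ε by
      rw [mem_ball_zero_iff, Real.norm_eq_abs, abs_of_pos (half_pos hε)]; linarith)
    have hu' : u ⬝ᵥ ((ε / 2) • z₀) = 0 := (hr0 _).1
    have := (hin _ (by simpa [hu'] using hs0)).1 hm
    simp only [P, hu', zero_smul, sub_zero, hsc₁] at this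
    nlinarith [mul_pos (pow_pos (half_pos hε) 2) hαp]
  have hPs : ∀ (r : ℝ) x, P (r • x) = r ^ 2 * P x := fun r x => by
    simp only [P, G₁, dotProduct_smul, smul_eq_mul, mul_smul, ← smul_sub, map_smul,
      smul_dotProduct, dotProduct_smul, smul_eq_mul]
    ring
  have hPc : Continuous P := by
    have hu' := Full.continuous_dot u
    have hl := Φ₁.continuous_of_finiteDimensional
    have h' : Continuous fun x => Φ₁ (x - (u ⬝ᵥ x) • v) :=
      hl.comp (continuous_id.sub (hu'.smul continuous_const))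
    exact (continuous_finsetSum _ fun i _ =>
      ((continuous_apply i).comp h').mul ((continuous_apply i).comp h')).add
      (continuous_const.mul (hu'.pow 2))
  have hclose : ∀ x, P x ≤ e → |u ⬝ᵥ x| ≤ hs → x ∈ K := by
    intro x hx hux
    refine hK.compact.isClosed.mem_of_tendsto (f := fun r : ℝ => r • x) (b := 𝓝[<] (1 : ℝ)) ?_ ?_
    · exact ((continuous_id.smul continuous_const).tendsto' 1 x (by simp)).mono_left
        nhdsWithin_le_nhds
    · filter_upwards [Ioo_mem_nhdsLT (show (-1 : ℝ) < 1 by norm_num)] with r hr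
      have hr1 : |r| < 1 := abs_lt.2 hr
      have hr2 : r ^ 2 < 1 := (sq_lt_one_iff_abs_lt_one r).2 hr1
      refine (hin _ ?_).2 ?_
      · rw [dotProduct_smul, smul_eq_mul, abs_mul]
        calc |r| * |u ⬝ᵥ x| ≤ |r| * hs := mul_le_mul_of_nonneg_left hux (abs_nonneg r)
          _ < hs := mul_lt_of_lt_one_left hs0 hr1
      · rw [hPs]
        nlinarith [mul_le_mul_of_nonneg_left hx (sq_nonneg r), sq_nonneg r]
  have hstrip : ∀ m, P m ≤ e → u ⬝ᵥ m ≤ hs := by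
    intro m hm
    by_contra hum
    rw [not_le] at hum
    set r := hs / u ⬝ᵥ m
    have hr : 0 < r ∧ r < 1 := ⟨div_pos hs0 (hs0.trans hum), (div_lt_one (hs0.trans hum)).2 hum⟩
    set x := r • m
    have hxu : u ⬝ᵥ x = hs := by
      simp only [x, dotProduct_smul, smul_eq_mul, r]
      rw [div_mul_cancel₀ _ (hs0.trans hum).ne']
    have hxP : P x < e := by
      simp only [x]
      rw [hPs]
      exact (mul_le_mul_of_nonneg_left hm (sq_nonneg r)).trans_lt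
        (mul_lt_of_lt_one_left he (pow_lt_one₀ hr.1.le hr.2 two_ne_zero))
    have hnear : ∀ y, u ⬝ᵥ y = 0 → ∃ ε : ℝ, 0 < ε ∧ ∀ r : ℝ, |r| ≤ ε → x + r • y ∈ K := by
      intro y hy
      have hev : ∀ᶠ r in 𝓝 (0 : ℝ), P (x + r • y) < e :=
        (hPc.comp (by fun_prop : Continuous fun r : ℝ => x + r • y)).continuousAt.eventually_lt
          continuousAt_const (by simpa using hxP)
      obtain ⟨ε, hε, hεP⟩ := Metric.eventually_nhds_iff.1 hev
      refine ⟨ε / 2, half_pos hε, fun r hr => hclose _ (hεP ?_).le ?_⟩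
      · rw [dist_zero_right, Real.norm_eq_abs]; linarith
      · rw [dotProduct_add, hxu, dotProduct_smul, hy, smul_zero, add_zero, abs_of_pos hs0]
    obtain ⟨ε, hε, hεK⟩ := hnear ew h3
    obtain ⟨η, hη, hηK⟩ := hnear z₀ hz0u
    set t := w ⬝ᵥ x
    have htb : ∀ r, |r| ≤ ε → |t + r| ≤ ht := fun r hr => by
      have m1 := Full.le_supportVal hK.compact (hεK r hr) w
      have m2 := Full.le_supportVal hK.compact (hK.neg_mem _ (hεK r hr)) w
      simp only [dotProduct_neg, dotProduct_add, dotProduct_smul, smul_eq_mul, h4, mul_one] at m1 m2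
      exact abs_le.2 ⟨by linarith, m1⟩
    have htlt : |t| < ht := by
      have := (abs_le.1 (htb ε (abs_of_pos hε).le)).2
      have := (abs_le.1 (htb (-ε) (by rw [abs_neg, abs_of_pos hε]))).1
      exact abs_lt.2 ⟨by linarith, by linarith⟩
    set z := x - (u ⬝ᵥ x) • eu - (w ⬝ᵥ x) • ew
    have hzr : ∀ r, |r| ≤ η → G₂ (z - d t + r • z₀) ≤ B hs t := fun r hr => by
      have hmem : z + r • z₀ + hs • eu + t • ew ∈ K := by
        rw [show z + r • z₀ + hs • eu + t • ew = x + r • z₀ by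
          simp only [z, t, hxu]; module]
        exact hηK r hr
      have h := (hB _ (by simp [dotProduct_add, dotProduct_smul, (hsplit x).1, z, hz0u])
        (by simp [dotProduct_add, dotProduct_smul, (hsplit x).2, z, hz0w]) hs t htlt).1 hmem
      rwa [add_sub_right_comm] at h
    have hBpos : 0 < B hs t := by
      have m1 := hzr η (abs_of_pos hη).le
      have m2 := hzr (-η) (by rw [abs_neg, abs_of_pos hη])
      simp only [G₂, map_add, map_smul, add_dotProduct, dotProduct_add, smul_dotProduct,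
        dotProduct_smul, smul_eq_mul] at m1 m2
      have hG : (0 : ℝ) ≤ Φ₂ (z - d t) ⬝ᵥ Φ₂ (z - d t) := hα
      have hη2 : 0 < η * (η * β) := by positivity
      have hβ' : β = Φ₂ z₀ ⬝ᵥ Φ₂ z₀ := rfl
      rw [← hβ'] at m1 m2
      linarith
    have hev : ∀ᶠ s in 𝓝 hs, 0 < B s t :=
      continuousAt_const.eventually_lt (show ContinuousAt (fun s => B s t) hs by
        simp only [B]; fun_prop) hBpos
    obtain ⟨ε', hε', hεB⟩ := Metric.eventually_nhds_iff.1 hev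
    have hmem := (hB (d t) (hd t).2 (hd t).1 (hs + ε' / 2) t htlt).2 (by
      simp only [G₂, sub_self, map_zero, dotProduct_zero]
      exact (hεB (by rw [Real.dist_eq, add_sub_cancel_left, abs_of_pos (by positivity)]; linarith)).le)
    have := Full.le_supportVal hK.compact hmem u
    rw [(hpt _ (hd t).2 (hd t).1 _ _).1] at this
    linarith
  have hE : ∀ x, x ∈ K ↔ P x ≤ e := by
    intro x
    constructor
    · intro hx
      refine le_of_tendsto (f := fun r : ℝ => P (r • x)) (x := 𝓝[<] (1 : ℝ)) ?_ ?_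
      · exact ((hPc.comp (continuous_id.smul continuous_const)).tendsto' 1 (P x) (by simp)).mono_left
          nhdsWithin_le_nhds
      · filter_upwards [Ioo_mem_nhdsLT (show (-1 : ℝ) < 1 by norm_num)] with r hr
        have hr1 : |r| < 1 := abs_lt.2 hr
        have m1 := Full.le_supportVal hK.compact hx u
        have m2 := Full.le_supportVal hK.compact (hK.neg_mem _ hx) u
        rw [dotProduct_neg] at m2
        have hrK : r • x ∈ K := by
          rcases le_total 0 r with h | h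
          · exact hK.convex.smul_mem_of_zero_mem (Cvx.of_body hK).zero_mem hx ⟨h, hr.2.le⟩
          · have := hK.convex.smul_mem_of_zero_mem (Cvx.of_body hK).zero_mem (hK.neg_mem _ hx)
              (t := -r) ⟨by linarith, by linarith [hr.1]⟩
            rwa [neg_smul, smul_neg, neg_neg] at this
        refine (hin _ ?_).1 hrK
        rw [dotProduct_smul, smul_eq_mul, abs_mul]
        calc |r| * |u ⬝ᵥ x| ≤ |r| * hs :=
              mul_le_mul_of_nonneg_left (abs_le.2 ⟨by linarith, m1⟩) (abs_nonneg r)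
          _ < hs := mul_lt_of_lt_one_left hs0 hr1
    · intro hx
      refine hclose x hx (abs_le.2 ⟨?_, hstrip x hx⟩)
      have := hstrip (-x) (by rw [← neg_one_smul ℝ x, hPs]; linarith)
      rw [dotProduct_neg] at this
      linarith
  have hb : 0 < b := by
    by_contra hb
    have hm : P ((2 * hs) • v) ≤ e := by
      simp only [P, G₁, dotProduct_smul, hvu, smul_eq_mul, mul_one, sub_self, map_zero,
        zero_dotProduct, zero_add]
      nlinarith [sq_nonneg (2 * hs)]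
    have := hstrip _ hm
    rw [dotProduct_smul, hvu, smul_eq_mul, mul_one] at this
    linarith
  -- the linear map
  set S : Pt (k + 2) →ₗ[ℝ] Pt (k + 2) := (√e)⁻¹ •
    ((snocLin (k + 1)).toLinearMap.comp
      ((Φ₁.comp (LinearMap.id - (Full.dotCLM u).toLinearMap.smulRight v)).prod
        (√b • (Full.dotCLM u).toLinearMap)))
  have hSa : ∀ x, S x = (√e)⁻¹ •
      (Fin.snoc (Φ₁ (x - (u ⬝ᵥ x) • v)) (√b * (u ⬝ᵥ x)) : Pt (k + 2)) := fun x => rfl
  have hSS : ∀ x, S x ⬝ᵥ S x = e⁻¹ * P x := fun x => by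
    rw [hSa, smul_dotProduct, dotProduct_smul, smul_eq_mul, smul_eq_mul,
      show ∀ (g : Pt (k + 1)) (y : ℝ), (Fin.snoc g y : Pt (k + 2)) ⬝ᵥ (Fin.snoc g y : Pt (k + 2))
        = g ⬝ᵥ g + y * y from fun g y => by simp [dotProduct, Fin.sum_univ_castSucc]]
    rw [← mul_assoc, ← mul_inv, Real.mul_self_sqrt he.le]
    congr 1
    simp only [P, G₁]
    rw [show √b * (u ⬝ᵥ x) * (√b * (u ⬝ᵥ x)) = √b * √b * (u ⬝ᵥ x) ^ 2 by ring,
      Real.mul_self_sqrt hb.le]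
  have hinj : Injective S := (injective_iff_map_eq_zero S).2 fun x hx => by
    have hP0 : P x = 0 := by simpa [hx, he.ne'] using (hSS x).symm
    simp only [P, G₁] at hP0
    obtain ⟨g1, g2⟩ := (add_eq_zero_iff_of_nonneg hα (mul_nonneg hb.le (sq_nonneg _))).1 hP0
    have hux : u ⬝ᵥ x = 0 := by simpa [hb.ne'] using g2
    rw [hux, zero_smul, sub_zero] at g1
    exact f₁.inj x hux (dotProduct_self_eq_zero.1 g1)
  set T := LinearEquiv.ofInjectiveEndo S hinj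
  refine ⟨T.symm, ?_⟩
  rw [T.symm.image_eq_preimage_symm]
  ext x
  show x ∈ K ↔ S x ⬝ᵥ S x ≤ 1
  rw [hE, hSS, inv_mul_le_iff₀ he, mul_one]

end Vale.Agent.P237.W1
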